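import Vale.Agent.P151.H648.Theta

/-!
# Graphs of polynomial growth are amenable; the lattice `ℤ^d`
-/

open MeasureTheory ProbabilityTheory SimpleGraph Filter Topology Finset

set_option linter.unusedSectionVars false

namespace Vale.Agent.P151.H648

open Vale.Agent.P151

section general

variable {V : Type} [DecidableEq V] {G : SimpleGraph V} [G.LocallyFinite]

theorem outerBoundary_ball (o : V) (n : ℕ) :
    outerBoundary G (ballF G o n) = ((ballF G o (n + 1) \ ballF G o n : Finset V) : Set V) := by
  ext y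
  rw [Finset.mem_coe, Finset.mem_sdiff, mem_ballF_succ]
  constructor
  · rintro ⟨h1, x, hx, hxy⟩
    exact ⟨Or.inr ⟨x, hx, hxy⟩, h1⟩
  · rintro ⟨h1, h2⟩
    rcases h1 with h1 | ⟨x, hx, hxy⟩
    · exact absurd h1 h2
    · exact ⟨h2, x, hx, hxy⟩

/-- Polynomial growth implies amenability. -/
theorem amenable_of_growth (o : V) (C : ℝ) (k : ℕ)
    (h : ∀ n : ℕ, 1 ≤ n → ((ballF G o n).card : ℝ) ≤ C * (n : ℝ) ^ k) : IsAmenable G := by
  intro ε hε
  by_contra hcon
  push Not at hcon
  have hne : ∀ n, (ballF G o n).Nonempty := fun n => ⟨o, mem_ballF_self G o n⟩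
  have hstep : ∀ n, (1 + ε) * ((ballF G o n).card : ℝ) ≤ (ballF G o (n + 1)).card := by
    intro n
    have h1 := hcon (ballF G o n) (hne n)
    rw [outerBoundary_ball, Set.ncard_coe_finset] at h1
    have h2 : ((ballF G o (n + 1) \ ballF G o n).card : ℝ) =
        (ballF G o (n + 1)).card - (ballF G o n).card := by
      rw [Finset.card_sdiff_of_subset (ballF_mono G o (Nat.le_succ n)),
        Nat.cast_sub (Finset.card_le_card (ballF_mono G o (Nat.le_succ n)))]
    rw [h2] at h1
    linarith
  have hexp : ∀ n : ℕ, (1 + ε) ^ n ≤ ((ballF G o n).card : ℝ) := by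
    intro n
    induction n with
    | zero =>
      rw [pow_zero]
      exact_mod_cast (hne 0).card_pos
    | succ n ih =>
      calc (1 + ε) ^ (n + 1) = (1 + ε) * (1 + ε) ^ n := by ring
        _ ≤ (1 + ε) * ((ballF G o n).card : ℝ) := mul_le_mul_of_nonneg_left ih (by linarith)
        _ ≤ _ := hstep n
  have hlim := (tendsto_pow_const_div_const_pow_of_one_lt k (show 1 < 1 + ε by linarith)).const_mul C
  rw [mul_zero] at hlim
  have h1 := (hlim.eventually (gt_mem_nhds (show (0 : ℝ) < 1 by norm_num))).and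
    (eventually_ge_atTop 1)
  obtain ⟨n, hn, hn1⟩ := h1.exists
  have h2 : 0 < (1 + ε) ^ n := by positivity
  have h3 := (hexp n).trans (h n hn1)
  rw [mul_div_assoc'] at hn
  rw [div_lt_one h2] at hn
  linarith

end general

section lattice

variable {d : ℕ}

theorem lattice_adj (x y : Fin d → ℤ) : (lattice d).Adj x y ↔ ∑ i, |x i - y i| = 1 := Iff.rfl

noncomputable instance latticeLF : (lattice d).LocallyFinite := fun x =>
  (ZdT.neighborSet_finite (lattice d) lattice_adj x).fintype

theorem lattice_connected : (lattice d).Connected := ZdT.connected (lattice d) lattice_adj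

theorem lattice_transitive : ∃ S : Finset (Fin d → ℤ), ∀ x, ∃ y ∈ S,
    ∃ φ : lattice d ≃g lattice d, φ y = x := by
  obtain ⟨S, hS⟩ := ZdT.transitive (lattice d) lattice_adj
  refine ⟨S, fun x => ?_⟩
  obtain ⟨y, hy, φ, _, hφ⟩ := hS x
  exact ⟨y, hy, φ, hφ⟩

theorem ball_subset_box (n : ℕ) (x : Fin d → ℤ) (hx : x ∈ ballF (lattice d) 0 n) :
    x ∈ Fintype.piFinset (fun _ : Fin d => Finset.Icc (-(n : ℤ)) n) := by
  induction n generalizing x with
  | zero =>
    rw [ballF_zero, Finset.mem_singleton] at hx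
    subst hx
    rw [Fintype.mem_piFinset]
    intro i
    simp
  | succ n ih =>
    rw [mem_ballF_succ] at hx
    rw [Fintype.mem_piFinset]
    intro i
    rw [Finset.mem_Icc]
    push_cast
    rcases hx with hx | ⟨y, hy, hyx⟩
    · have h1 := (Fintype.mem_piFinset.1 (ih x hx)) i
      rw [Finset.mem_Icc] at h1
      constructor <;> linarith [h1.1, h1.2]
    · have h1 := (Fintype.mem_piFinset.1 (ih y hy)) i
      rw [Finset.mem_Icc] at h1
      have h2 : |y i - x i| ≤ 1 := by
        rw [← (lattice_adj y x).1 hyx]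
        exact Finset.single_le_sum (f := fun i => |y i - x i|) (fun j _ => abs_nonneg _)
          (Finset.mem_univ i)
      have h3 := abs_le.1 h2
      constructor <;> linarith [h1.1, h1.2, h3.1, h3.2]

theorem lattice_amenable : IsAmenable (lattice d) := by
  apply amenable_of_growth (0 : Fin d → ℤ) ((3 : ℝ) ^ d) d
  intro n hn
  have h1 : (ballF (lattice d) 0 n).card ≤ (2 * n + 1) ^ d := by
    refine (Finset.card_le_card (fun x hx => ball_subset_box n x hx)).trans ?_
    rw [Fintype.card_piFinset]
    simp only [Int.card_Icc, Finset.prod_const, Finset.card_univ, Fintype.card_fin]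
    apply Nat.pow_le_pow_left
    omega
  have h2 : ((ballF (lattice d) 0 n).card : ℝ) ≤ (2 * n + 1 : ℝ) ^ d := by exact_mod_cast h1
  refine h2.trans ?_
  rw [← mul_pow]
  have h3 : (1 : ℝ) ≤ n := by exact_mod_cast hn
  exact pow_le_pow_left₀ (by positivity) (by linarith) d

theorem lattice_infinite (hd : 2 ≤ d) : Infinite (Fin d → ℤ) := by
  have : Nonempty (Fin d) := ⟨⟨0, by omega⟩⟩
  infer_instance

end lattice

end Vale.Agent.P151.H648
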