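import Vale.Agent.P151.H648.Theta

/-!
# If the cluster of some vertex is infinite with positive probability, then almost surely there is
an infinite cluster
-/

open MeasureTheory ProbabilityTheory SimpleGraph Filter Topology unitInterval

set_option linter.unusedSectionVars false

namespace Vale.Agent.P151.H648

open Vale.Agent.P151 Vale.Agent.P151.Red Vale.Agent.P151.Pl

variable {V : Type} [DecidableEq V] {G : SimpleGraph V} [G.LocallyFinite]

/-- The main inequality `a R ≤ a k * b`. -/
theorem base_mul (hG : G.Connected) (o : V) {p : ℝ} (h0 : 0 ≤ p) (h1 : p ≤ 1) {k R : ℕ}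
    (hkR : k ≤ R) :
    Pr p (edgesIn G (ballF G o R))
      (fun T => ∃ v ∈ cluster (↑T : Set (Sym2 V)) o, G.dist v o = R) ≤
    Pr p (edgesIn G (ballF G o k))
      (fun T => ∃ v ∈ cluster (↑T : Set (Sym2 V)) o, G.dist v o = k) *
    Pr p (edgesIn G (ballF G o R)) (fun T => ∃ v ∈ seedCl G k o T, G.dist v o = R) := by
  have hsub : edgesIn G (ballF G o k) ⊆ edgesIn G (ballF G o R) :=
    edgesIn_mono G (ballF_mono G o hkR)
  have hb : Pr p (edgesIn G (ballF G o R))
        (fun T => ∃ v ∈ seedCl G k o T, G.dist v o = R) =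
      Pr p (edgesIn G (ballF G o R) \ edgesIn G (ballF G o k))
        (fun T => ∃ v ∈ seedCl G k o T, G.dist v o = R) := by
    refine Pr_restrict p Finset.sdiff_subset fun T hT => ?_
    have e : Ek G k o ∪ T ∩ (edgesIn G (ballF G o R) \ edgesIn G (ballF G o k)) =
        Ek G k o ∪ T := by
      ext x
      simp only [Ek, Finset.mem_union, Finset.mem_inter, Finset.mem_sdiff]
      constructor
      · rintro (h | h)
        · exact Or.inl h
        · exact Or.inr h.1
      · rintro (h | h)
        · exact Or.inl h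
        · by_cases hx : x ∈ edgesIn G (ballF G o k)
          · exact Or.inl hx
          · exact Or.inr ⟨h, hT h, hx⟩
    unfold seedCl
    rw [e]
  rw [hb]
  have hun : edgesIn G (ballF G o R) = edgesIn G (ballF G o k) ∪
      (edgesIn G (ballF G o R) \ edgesIn G (ballF G o k)) := by
    rw [Finset.union_sdiff_of_subset hsub]
  conv_lhs => rw [hun, Pr_union p Finset.disjoint_sdiff]
  set b := Pr p (edgesIn G (ballF G o R) \ edgesIn G (ballF G o k))
        (fun T => ∃ v ∈ seedCl G k o T, G.dist v o = R) with hbdef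
  unfold Pr
  rw [← Ex_mul_const]
  refine Ex_mono h0 h1 fun S hS => ?_
  by_cases hQ : ∃ v ∈ cluster (↑S : Set (Sym2 V)) o, G.dist v o = k
  · rw [ind_true hQ, one_mul, hbdef]
    refine Pr_mono h0 h1 fun T _ hT => ?_
    obtain ⟨v, hv, hvR⟩ := hT
    refine ⟨v, cluster_mono ?_ o hv, hvR⟩
    rw [Finset.coe_subset]
    exact Finset.union_subset_union_left hS
  · rw [ind_false hQ, zero_mul]
    change Pr p _ _ ≤ 0
    rw [← Pr_false' p (edgesIn G (ballF G o R) \ edgesIn G (ballF G o k))]
    refine Pr_mono h0 h1 fun T hT h => hQ ?_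
    have hG' : ∀ a b, s(a, b) ∈ S ∪ T → G.Adj a b := by
      intro a b hab
      rcases Finset.mem_union.1 hab with h2 | h2
      · exact (mk_mem_edgesIn.1 (hS h2)).1
      · exact (mk_mem_edgesIn.1 (Finset.mem_sdiff.1 (hT h2)).1).1
    have h3 := Base_reach hG o hkR hG' h
    have e : (S ∪ T) ∩ edgesIn G (ballF G o k) = S := by
      ext x
      simp only [Finset.mem_union, Finset.mem_inter]
      constructor
      · rintro ⟨h4 | h4, h5⟩
        · exact h4
        · exact absurd h5 (Finset.mem_sdiff.1 (hT h4)).2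
      · intro h4
        exact ⟨Or.inl h4, hS h4⟩
    rw [e] at h3
    exact h3

/-- Large seeds percolate with high probability. -/
theorem exists_seed (hG : G.Connected) (o : V) {p : I} (hP : 0 < theta G o p) {ε : ℝ}
    (hε : 0 < ε) : ∃ k : ℕ, ∀ R : ℕ, k ≤ R → 1 - ε ≤ Pr p (edgesIn G (ballF G o R))
      (fun T => ∃ v ∈ seedCl G k o T, G.dist v o = R) := by
  have h0 : 0 ≤ (p : ℝ) := p.2.1
  have h1 : (p : ℝ) ≤ 1 := p.2.2
  set a : ℕ → ℝ := fun R => Pr p (edgesIn G (ballF G o R))
      (fun T => ∃ v ∈ cluster (↑T : Set (Sym2 V)) o, G.dist v o = R) with ha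
  have hc : ∀ R, theta G o p ≤ a R := fun R => real_infC_le hG p o R
  have hbdd : BddBelow (Set.range a) := ⟨theta G o p, by rintro _ ⟨n, rfl⟩; exact hc n⟩
  set θ := ⨅ n, a n with hθdef
  have hθc : theta G o p ≤ θ := le_ciInf hc
  have hθpos : 0 < θ := lt_of_lt_of_le hP hθc
  have hlt : θ < θ * (1 + ε) := by nlinarith only [hε, hθpos]
  obtain ⟨k, hk⟩ := exists_lt_of_ciInf_lt hlt
  refine ⟨k, fun R hR => ?_⟩
  have h2 : θ ≤ a R := ciInf_le hbdd R
  have h3 := base_mul hG o h0 h1 hR
  set b := Pr p (edgesIn G (ballF G o R))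
    (fun T => ∃ v ∈ seedCl G k o T, G.dist v o = R) with hb
  have h4 : 0 ≤ b := Pr_nonneg h0 h1 _ _
  have h5 : θ ≤ θ * (1 + ε) * b := by
    refine h2.trans (h3.trans (mul_le_mul_of_nonneg_right hk.le h4))
  have h6 : 1 ≤ (1 + ε) * b := by
    by_contra hcon
    push Not at hcon
    nlinarith only [h5, hcon, hθpos]
  have h7 : b ≤ 1 := Pr_le_one h0 h1 _ _
  nlinarith only [h6, hε]

/-- If no cluster is infinite, then the cluster of a seed is finite. -/
theorem finite_seed (k : ℕ) (o : V) {ω : Set (Sym2 V)} (h : ω ∉ hasInfiniteCluster V) :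
    (cluster ((Ek G k o : Set (Sym2 V)) ∪ ω) o).Finite := by
  have hfin : ∀ v, (cluster ω v).Finite := by
    intro v
    by_contra hcon
    exact h ⟨v, hcon⟩
  have hself : ∀ v, v ∈ cluster ω v := fun v => Reachable.refl v
  apply Set.Finite.subset (Set.Finite.biUnion (Finset.finite_toSet (ballF G o k))
    (fun v _ => hfin v))
  apply cluster_closed
  · rw [Set.mem_iUnion₂]
    exact ⟨o, mem_ballF_self G o k, hself o⟩
  · intro u hu v huv
    rw [Set.mem_iUnion₂] at hu ⊢
    rcases huv with huv | huv
    · have h1 := (mk_mem_edgesIn.1 (Finset.mem_coe.1 huv)).2.2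
      exact ⟨v, h1, hself v⟩
    · obtain ⟨w, hw, hwu⟩ := hu
      refine ⟨w, hw, ?_⟩
      by_cases hne : u = v
      · rw [← hne]; exact hwu
      · exact Reachable.trans hwu (Adj.reachable ((fromEdgeSet_adj _).2 ⟨huv, hne⟩))

/-- **Zero-one law**: if the cluster of some vertex is infinite with positive probability, then
almost surely there is an infinite cluster. -/
theorem ae_perc (hG : G.Connected) (o : V) {p : I} (hP : 0 < theta G o p) :
    ∀ᵐ ω ∂(setBernoulli G.edgeSet p), ω ∈ hasInfiniteCluster V := by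
  classical
  set μ := setBernoulli G.edgeSet p with hμ
  have key : ∀ ε : ℝ, 0 < ε → μ {ω | ω ∉ hasInfiniteCluster V} ≤ ENNReal.ofReal ε := by
    intro ε hε
    obtain ⟨k, hk⟩ := exists_seed hG o hP hε
    -- the bad events
    set Q : ℕ → Set (Sym2 V) → Prop := fun R s =>
      ¬ ∃ v ∈ cluster ((Ek G k o : Set (Sym2 V)) ∪ s) o, G.dist v o = R with hQ
    set B : ℕ → Set (Set (Sym2 V)) := fun R =>
      {ω | Q R (ω ∩ (edgesIn G (ballF G o R) : Set (Sym2 V)))} with hB
    have hBm : ∀ R, k ≤ R → μ (B R) ≤ ENNReal.ofReal ε := by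
      intro R hR
      have h1 : μ.real (B R) = Pr p (edgesIn G (ballF G o R))
          (fun T => ¬ ∃ v ∈ seedCl G k o T, G.dist v o = R) := by
        rw [hB]
        rw [setBer_inter_pred G.edgeSet p (edgesIn G (ballF G o R))
          (fun e he => (mem_edgesIn.1 (Finset.mem_coe.1 he)).1) (Q R)]
        unfold Pr Ex
        rw [Finset.sum_filter]
        apply Finset.sum_congr rfl
        intro S _
        have hiff : Q R (S : Set (Sym2 V)) ↔ ¬ ∃ v ∈ seedCl G k o S, G.dist v o = R := by
          simp only [hQ]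
          unfold seedCl
          rw [Finset.coe_union]
        beta_reduce
        by_cases h : Q R (S : Set (Sym2 V))
        · rw [if_pos h, ind_true (hiff.1 h), mul_one]
        · rw [if_neg h, ind_false (fun h' => h (hiff.2 h')), mul_zero]
      rw [Pr_not] at h1
      have h2 := hk R hR
      have h3 : μ.real (B R) ≤ ε := by rw [h1]; linarith
      rw [← ofReal_measureReal (measure_ne_top _ _)]
      exact ENNReal.ofReal_le_ofReal h3
    have hsub : {ω | ω ∉ hasInfiniteCluster V} ⊆ ⋃ R0 : ℕ, ⋂ R : ℕ, B (R + (R0 + k)) := by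
      intro ω hω
      have hfin := finite_seed (G := G) k o hω
      rw [Set.mem_iUnion]
      obtain ⟨M, hM⟩ := (hfin.image (fun v => G.dist v o)).bddAbove
      refine ⟨M + 1, ?_⟩
      rw [Set.mem_iInter]
      intro R
      rintro ⟨v, hv, hd⟩
      have h1 : v ∈ cluster ((Ek G k o : Set (Sym2 V)) ∪ ω) o :=
        cluster_mono (Set.union_subset_union_right _ Set.inter_subset_left) o hv
      have h2 : G.dist v o ≤ M := hM (Set.mem_image_of_mem (fun v => G.dist v o) h1)
      omega
    refine (measure_mono hsub).trans ?_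
    have hmono : Monotone (fun R0 : ℕ => ⋂ R : ℕ, B (R + (R0 + k))) := by
      intro a b hab
      apply Set.subset_iInter
      intro R
      have h1 := Set.iInter_subset (fun R : ℕ => B (R + (a + k))) (R + (b - a))
      have h2 : R + (b - a) + (a + k) = R + (b + k) := by omega
      rw [h2] at h1
      exact h1
    rw [hmono.measure_iUnion]
    apply iSup_le
    intro R0
    exact (measure_mono (Set.iInter_subset _ 0)).trans (hBm _ (by omega))
  have hzero : μ {ω | ω ∉ hasInfiniteCluster V} = 0 := by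
    apply le_antisymm _ bot_le
    apply ENNReal.le_of_forall_pos_le_add
    intro ε hε _
    have := key ε (by exact_mod_cast hε)
    rw [ENNReal.ofReal_coe_nnreal] at this
    simpa using this
  exact hzero

end Vale.Agent.P151.H648
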