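import Vale.Agent.P151.H648.Uniq
import Vale.Agent.P151.H648.ZeroOne
import Mathlib.MeasureTheory.Constructions.UnitInterval

/-!
# The uniform coupling and continuity of the percolation probability
-/

open MeasureTheory ProbabilityTheory SimpleGraph Filter Topology unitInterval
open scoped ENNReal

set_option linter.unusedSectionVars false

namespace Vale.Agent.P151.H648

open Vale.Agent.P151

section Coupling

variable {ι : Type}

/-- Independent uniform labels. -/
noncomputable def unif (ι : Type) : Measure (ι → I) :=
  Measure.infinitePi (fun _ => (volume : Measure I))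

noncomputable instance : IsProbabilityMeasure (unif ι) := by
  unfold unif; infer_instance

/-- The elements of `u` with label less than `p`. -/
def openAt (u : Set ι) (p : I) (U : ι → I) : Set ι := {i | i ∈ u ∧ U i < p}

theorem openAt_mono (u : Set ι) {p q : I} (h : p ≤ q) (U : ι → I) :
    openAt u p U ⊆ openAt u q U := fun _ hi => ⟨hi.1, hi.2.trans_le h⟩

theorem coe_toNNReal (p : I) : ((toNNReal p : NNReal) : ℝ≥0∞) = ENNReal.ofReal (p : ℝ) := by
  rw [ENNReal.ofReal]
  congr 1
  exact (Real.toNNReal_of_nonneg p.2.1).symm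

theorem ofReal_add_one (p : I) :
    ENNReal.ofReal (p : ℝ) + ENNReal.ofReal (1 - (p : ℝ)) = 1 := by
  rw [← ENNReal.ofReal_add p.2.1 (by linarith [p.2.2])]
  simp

theorem measurable_f (u : Set ι) (p : I) (i : ι) :
    Measurable (fun t : I => (i ∈ u ∧ t < p : Prop)) := by
  apply measurable_to_prop
  have : (fun t : I => (i ∈ u ∧ t < p : Prop)) ⁻¹' {True} = {t : I | i ∈ u ∧ t < p} := by
    ext t; simp
  rw [this]
  by_cases hi : i ∈ u
  · simp only [hi, true_and]
    exact measurableSet_Iio
  · simp only [hi, false_and, Set.ofPred_false]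
    exact MeasurableSet.empty

theorem map_f (u : Set ι) (p : I) (i : ι) :
    (volume : Measure I).map (fun t : I => (i ∈ u ∧ t < p : Prop)) =
      toNNReal p • Measure.dirac (i ∈ u) + toNNReal (σ p) • Measure.dirac False := by
  ext s hs
  rw [Measure.map_apply (measurable_f u p i) hs]
  have hR : (toNNReal p • Measure.dirac (i ∈ u) + toNNReal (σ p) • Measure.dirac False :
      Measure Prop) s = ENNReal.ofReal (p : ℝ) * (Measure.dirac (i ∈ u) : Measure Prop) s +
        ENNReal.ofReal (1 - (p : ℝ)) * (Measure.dirac False : Measure Prop) s := by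
    rw [Measure.add_apply, Measure.smul_apply, Measure.smul_apply, ENNReal.smul_def,
      ENNReal.smul_def, smul_eq_mul, smul_eq_mul, coe_toNNReal, coe_toNNReal]
    rfl
  rw [hR, Measure.dirac_apply' _ hs, Measure.dirac_apply' _ hs]
  by_cases hi : i ∈ u
  · have e1 : (i ∈ u) = True := eq_true hi
    rw [e1]
    by_cases hT : True ∈ s <;> by_cases hF : False ∈ s
    · have : (fun t : I => (True ∧ t < p : Prop)) ⁻¹' s = Set.univ := by
        ext t
        simp only [Set.mem_preimage, true_and, Set.mem_univ, iff_true]
        by_cases h : t < p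
        · rw [eq_true h]; exact hT
        · rw [eq_false h]; exact hF
      rw [this]
      simp [hT, hF, ofReal_add_one]
    · have : (fun t : I => (True ∧ t < p : Prop)) ⁻¹' s = Set.Iio p := by
        ext t
        simp only [Set.mem_preimage, true_and, Set.mem_Iio]
        by_cases h : t < p
        · rw [eq_true h]; simp [hT]
        · rw [eq_false h]; simp [hF]
      rw [this]
      simp [hT, hF]
    · have : (fun t : I => (True ∧ t < p : Prop)) ⁻¹' s = Set.Ici p := by
        ext t
        simp only [Set.mem_preimage, true_and, Set.mem_Ici]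
        by_cases h : t < p
        · rw [eq_true h]; simp [hT, h]
        · rw [eq_false h]; simp [hF, not_lt.1 h]
      rw [this]
      simp [hT, hF]
    · have : (fun t : I => (True ∧ t < p : Prop)) ⁻¹' s = ∅ := by
        ext t
        simp only [Set.mem_preimage, true_and, Set.mem_empty_iff_false, iff_false]
        by_cases h : t < p
        · rw [eq_true h]; exact hT
        · rw [eq_false h]; exact hF
      rw [this]
      simp [hT, hF]
  · have e1 : (i ∈ u) = False := eq_false hi
    rw [e1]
    by_cases hF : False ∈ s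
    · have : (fun t : I => (False ∧ t < p : Prop)) ⁻¹' s = Set.univ := by
        ext t
        simp [hF]
      rw [this]
      simp [hF, ofReal_add_one]
    · have : (fun t : I => (False ∧ t < p : Prop)) ⁻¹' s = ∅ := by
        ext t
        simp [hF]
      rw [this]
      simp [hF]

theorem measurable_openAt (u : Set ι) (p : I) : Measurable (openAt u p) := by
  rw [measurable_set_iff]
  intro i
  exact (measurable_f u p i).comp (measurable_pi_apply i)

/-- The law of the set of open edges at level `p`. -/
theorem map_openAt (u : Set ι) (p : I) : (unif ι).map (openAt u p) = setBernoulli u p := by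
  rw [setBernoulli_eq_map]
  have h1 : (fun i : ι => (toNNReal p • Measure.dirac (i ∈ u) +
      toNNReal (σ p) • Measure.dirac False : Measure Prop)) =
      fun i => (volume : Measure I).map (fun t : I => (i ∈ u ∧ t < p : Prop)) := by
    funext i
    exact (map_f u p i).symm
  rw [h1]
  have h2 := Measure.infinitePi_map_pi (μ := fun _ : ι => (volume : Measure I))
    (f := fun (i : ι) (t : I) => (i ∈ u ∧ t < p : Prop)) (fun i => measurable_f u p i)
  rw [← h2, Measure.map_map]
  · rfl
  · rw [measurable_set_iff]
    intro i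
    exact measurable_pi_apply i
  · exact measurable_pi_lambda _ fun i => (measurable_f u p i).comp (measurable_pi_apply i)

theorem ae_openAt (u : Set ι) (p : I) {P : Set ι → Prop}
    (h : ∀ᵐ ω ∂(setBernoulli u p), P ω) : ∀ᵐ U ∂(unif ι), P (openAt u p U) := by
  rw [← map_openAt] at h
  exact ae_of_ae_map (measurable_openAt u p).aemeasurable h

end Coupling

variable {V : Type} [DecidableEq V] {G : SimpleGraph V} [G.LocallyFinite]

theorem theta_eq (hG : G.Connected) (x : V) (p : I) :
    theta G x p = (unif (Sym2 V)).real {U | openAt G.edgeSet p U ∈ InfC x} := by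
  have h1 : NullMeasurableSet (InfC x) ((unif (Sym2 V)).map (openAt G.edgeSet p)) := by
    rw [map_openAt, ← iInter_bigC]
    exact NullMeasurableSet.iInter fun n => nullMeasurableSet_bigC G hG p n x
  rw [theta_def, ← map_openAt, measureReal_def,
    Measure.map_apply₀ (measurable_openAt _ _).aemeasurable h1]
  rfl

/-- A finite path open at level `p` is open at a level below `p`. -/
theorem exists_level {p : I} {q : ℕ → I} (hq : Monotone q)
    (hqp : Tendsto q atTop (𝓝 p)) {U : Sym2 V → I} {x z : V}
    (h : z ∈ cluster (openAt G.edgeSet p U) x) :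
    ∃ n, z ∈ cluster (openAt G.edgeSet (q n) U) x := by
  obtain ⟨w⟩ := h
  induction w with
  | nil => exact ⟨0, Reachable.refl _⟩
  | @cons a b c hadj _ ih =>
    obtain ⟨n, hn⟩ := ih
    rw [fromEdgeSet_adj] at hadj
    obtain ⟨⟨he, hU⟩, hne⟩ := hadj
    obtain ⟨m, hm⟩ := (hqp.eventually (lt_mem_nhds hU)).exists
    refine ⟨max n m, ?_⟩
    have h1 : c ∈ cluster (openAt G.edgeSet (q (max n m)) U) b :=
      cluster_mono (openAt_mono _ (hq (le_max_left n m)) U) b hn
    have h2 : (fromEdgeSet (openAt G.edgeSet (q (max n m)) U)).Adj a b := by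
      rw [fromEdgeSet_adj]
      exact ⟨⟨he, hm.trans_le (hq (le_max_right n m))⟩, hne⟩
    exact Reachable.trans (Adj.reachable h2) h1

/-- The percolation probability is left-continuous above `p_c` (van den Berg–Keane). -/
theorem exists_theta_gt (hG : G.Connected) [Infinite V] {R : Finset V}
    (hR : ∀ x : V, ∃ y ∈ R, ∃ φ : G ≃g G, φ y = x) (hAm : IsAmenable G) (x : V) {p : I}
    (hp : pc G < p) {a : ℝ} (ha : a < theta G x p) : ∃ q : I, q < p ∧ a < theta G x q := by
  have hpc0 := pc_nonneg G
  obtain ⟨p0, hp0, hp0p⟩ : ∃ p0 : I, pc G < p0 ∧ p0 < p := by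
    refine ⟨⟨(pc G + p) / 2, by linarith [p.2.1], by linarith [p.2.2]⟩, ?_, ?_⟩
    · show pc G < (pc G + p) / 2
      linarith
    · rw [← Subtype.coe_lt_coe]
      show (pc G + p) / 2 < (p : ℝ)
      linarith
  have hp0p' : (p0 : ℝ) < p := hp0p
  set q : ℕ → I := fun n => ⟨p - (p - p0) / (n + 1), by
      have h1 : (p - p0 : ℝ) / (n + 1) ≤ p - p0 :=
        div_le_self (by linarith) (by linarith [(Nat.cast_nonneg n : (0 : ℝ) ≤ n)])
      linarith [p0.2.1], by
      have h1 : 0 ≤ (p - p0 : ℝ) / (n + 1) := div_nonneg (by linarith) (by positivity)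
      linarith [p.2.2]⟩ with hqdef
  have hqv : ∀ n, ((q n : I) : ℝ) = p - (p - p0) / (n + 1) := fun n => rfl
  have hqmono : Monotone q := by
    intro m n hmn
    rw [← Subtype.coe_le_coe, hqv, hqv]
    have h1 : (m : ℝ) ≤ n := by exact_mod_cast hmn
    have h2 : (p - p0 : ℝ) / (n + 1) ≤ (p - p0) / (m + 1) :=
      div_le_div_of_nonneg_left (by linarith) (by positivity) (by linarith)
    linarith
  have hqlt : ∀ n, q n < p := by
    intro n
    rw [← Subtype.coe_lt_coe, hqv]
    have h1 : 0 < (p - p0 : ℝ) / (n + 1) := div_pos (by linarith) (by positivity)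
    linarith
  have hq0 : ∀ n, p0 ≤ q n := by
    intro n
    have h1 : q 0 = p0 := by
      apply Subtype.ext
      rw [hqv]
      simp
    rw [← h1]
    exact hqmono (Nat.zero_le n)
  have hqlim : Tendsto q atTop (𝓝 p) := by
    rw [tendsto_subtype_rng]
    have h1 : Tendsto (fun n : ℕ => (p : ℝ) - (p - p0) / (n + 1)) atTop (𝓝 (p - 0)) := by
      apply Tendsto.sub tendsto_const_nhds
      exact tendsto_const_nhds.div_atTop
        (tendsto_natCast_atTop_atTop.atTop_add tendsto_const_nhds)
    rw [sub_zero] at h1
    exact h1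
  -- almost sure properties
  have hae1 := ae_openAt G.edgeSet p0 (ae_perc hG x (theta_pos hG x hp0))
  have hae2 := ae_openAt G.edgeSet p (ae_unique hG hR hAm p (hpc0.trans_lt hp))
  have hsub : {U | openAt G.edgeSet p U ∈ InfC x} ≤ᵐ[unif (Sym2 V)]
      ⋃ n, {U | openAt G.edgeSet (q n) U ∈ InfC x} := by
    filter_upwards [hae1, hae2] with U h1 h2 hx
    obtain ⟨z, hz⟩ := h1
    have hz2 : (cluster (openAt G.edgeSet p U) z).Infinite :=
      hz.mono (cluster_mono (openAt_mono _ hp0p.le U) z)
    have h3 := h2 x z hx hz2
    obtain ⟨n, hn⟩ := exists_level (G := G) hqmono hqlim h3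
    refine Set.mem_iUnion.2 ⟨n, ?_⟩
    have h4 : (cluster (openAt G.edgeSet (q n) U) z).Infinite :=
      hz.mono (cluster_mono (openAt_mono _ (hq0 n) U) z)
    show (cluster (openAt G.edgeSet (q n) U) x).Infinite
    apply h4.mono
    intro y hy
    exact Reachable.trans hn hy
  have hmono : Monotone (fun n => {U : Sym2 V → I | openAt G.edgeSet (q n) U ∈ InfC x}) := by
    intro m n hmn U hU
    exact Set.Infinite.mono (cluster_mono (openAt_mono _ (hqmono hmn) U) x) hU
  have h5 := measure_mono_ae hsub
  rw [hmono.measure_iUnion] at h5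
  by_contra hcon
  push Not at hcon
  have ha0 : 0 ≤ a := (theta_nonneg x (q 0)).trans (hcon (q 0) (hqlt 0))
  have h6 : unif (Sym2 V) {U | openAt G.edgeSet p U ∈ InfC x} ≤ ENNReal.ofReal a := by
    refine h5.trans (iSup_le fun n => ?_)
    have h7 := hcon (q n) (hqlt n)
    rw [theta_eq hG] at h7
    rw [← ofReal_measureReal (measure_ne_top _ _)]
    exact ENNReal.ofReal_le_ofReal h7
  have h7 : theta G x p ≤ a := by
    rw [theta_eq hG, measureReal_def]
    exact ENNReal.toReal_le_of_le_ofReal ha0 h6
  linarith

/-- **Continuity of the percolation probability**: on an amenable quasi-transitive graph without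
percolation at `p_c` the function `θ_x` is continuous on `[0, 1]`. -/
theorem continuous_theta (hG : G.Connected) {R : Finset V}
    (hR : ∀ x : V, ∃ y ∈ R, ∃ φ : G ≃g G, φ y = x) (hAm : IsAmenable G)
    (hpc : ∀ p : I, (p : ℝ) = pc G → setBernoulli G.edgeSet p (hasInfiniteCluster V) = 0)
    (x : V) : Continuous (theta G x) := by
  rcases finite_or_infinite V with hfin | hinf
  · have h0 : theta G x = fun _ => 0 := by
      funext p
      rw [theta_def]
      have : InfC x = ∅ := by
        ext ω
        simp only [InfC, Set.mem_ofPred_eq, Set.mem_empty_iff_false, iff_false, Set.not_infinite]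
        exact Set.toFinite _
      rw [this]
      simp
    rw [h0]
    exact continuous_const
  rw [continuous_iff_continuousAt]
  intro p
  rcases lt_trichotomy (p : ℝ) (pc G) with h | h | h
  · exact continuousAt_of_zero hG x p (theta_eq_zero_of_null x (null_of_lt_pc h))
  · exact continuousAt_of_zero hG x p (theta_eq_zero_of_null x (hpc p h))
  · rw [ContinuousAt, tendsto_order]
    constructor
    · intro a ha
      obtain ⟨q, hqp, hq⟩ := exists_theta_gt hG hR hAm x h ha
      filter_upwards [lt_mem_nhds hqp] with r hr
      exact hq.trans_le (theta_mono hG x hr.le)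
    · intro a ha
      have := theta_usc hG x p (show 0 < a - theta G x p by linarith)
      filter_upwards [this] with r hr
      linarith

/-- Above `p_c` there is almost surely exactly one infinite cluster. -/
theorem ae_exactly_one (hG : G.Connected) [Infinite V] {R : Finset V}
    (hR : ∀ x : V, ∃ y ∈ R, ∃ φ : G ≃g G, φ y = x) (hAm : IsAmenable G) {p : I}
    (hp : pc G < p) : ∀ᵐ ω ∂(setBernoulli G.edgeSet p), ω ∈ uniqueInfiniteCluster V := by
  obtain ⟨o⟩ := hG.nonempty
  filter_upwards [ae_perc hG o (theta_pos hG o hp),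
    ae_unique hG hR hAm p ((pc_nonneg G).trans_lt hp)] with ω h1 h2
  refine ⟨h1, fun x y hx hy => ?_⟩
  have h3 := h2 x y hx hy
  ext z
  constructor
  · intro hz
    exact Reachable.trans (Reachable.symm h3) hz
  · intro hz
    exact Reachable.trans h3 hz

end Vale.Agent.P151.H648
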