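import Vale.Agent.P151.Defs

open MeasureTheory ProbabilityTheory

namespace Vale.Agent.P151.H648

open Vale.Agent.P151

/-- The nearest neighbour graph on `ℤ^d`: `x` and `y` are adjacent when their `ℓ¹` distance
is `1`. -/
def lattice (d : ℕ) : SimpleGraph (Fin d → ℤ) where
  Adj x y := ∑ i, |x i - y i| = 1
  symm := ⟨by
    intro x y h
    have : ∀ i, |y i - x i| = |x i - y i| := fun i => abs_sub_comm _ _
    simpa [this] using h⟩
  loopless := ⟨by
    intro x h
    simp at h⟩

/-- Some group `Γ` of automorphisms of `G` with finitely many vertex orbits acts by translations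
through a map `π : V → ℝ²`, and two of these translations are linearly independent. -/
def HasPlanarProjection {V : Type} (G : SimpleGraph V) : Prop :=
  ∃ (Γ : Subgroup (G ≃g G)) (π : V → ℝ × ℝ),
    (∃ S : Finset V, ∀ x : V, ∃ y ∈ S, ∃ φ ∈ Γ, φ y = x) ∧
    (∀ φ ∈ Γ, ∃ w : ℝ × ℝ, ∀ v : V, π (φ v) = π v + w) ∧
    ∃ φ ∈ Γ, ∃ ψ ∈ Γ, ∃ v : V, LinearIndependent ℝ ![π (φ v) - π v, π (ψ v) - π v]

/-- Some group `Γ` of automorphisms of `G` with finitely many vertex orbits has a homomorphism `f`
onto a finitely generated virtually nilpotent group such that vertex stabilisers have finite images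
and the kernel of `f` has finite orbits. -/
def HasNilpotentSymmetry {V : Type} (G : SimpleGraph V) : Prop :=
  ∃ (Γ : Subgroup (G ≃g G)) (H : Type) (_ : Group H) (f : Γ →* H),
    (∃ S : Finset V, ∀ x : V, ∃ y ∈ S, ∃ φ ∈ Γ, φ y = x) ∧
    Group.FG H ∧ (∃ K : Subgroup H, K.FiniteIndex ∧ Group.IsNilpotent K) ∧
    Function.Surjective f ∧
    (∀ v : V, (f '' {φ : Γ | (φ : G ≃g G) v = v}).Finite) ∧
    ∀ v : V, {x : V | ∃ φ : Γ, f φ = 1 ∧ (φ : G ≃g G) v = x}.Finite

/-- The balls around some vertex grow at least as fast as `exp (c √n)`. -/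
def HasStretchedGrowth {V : Type} (G : SimpleGraph V) : Prop :=
  ∃ (o : V) (c : ℝ), 0 < c ∧ ∀ n : ℕ, Real.exp (c * √(n : ℝ)) ≤ ({y | G.dist o y ≤ n}.ncard : ℝ)

/-- The percolation probability `θ_x(p)`: the probability that the open cluster of `x` is
infinite, as a function of `p ∈ [0, 1]`. -/
noncomputable def theta {V : Type} (G : SimpleGraph V) (x : V) (p : unitInterval) : ℝ :=
  (setBernoulli G.edgeSet p).real {ω | (cluster ω x).Infinite}

/-- The probability `P_p(|K_x| ≥ n)` that the open cluster of `x` has at least `n` vertices. -/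
noncomputable def tail {V : Type} (G : SimpleGraph V) (x : V) (n : ℕ) (p : unitInterval) : ℝ :=
  (setBernoulli G.edgeSet p).real {ω | (n : ℕ∞) ≤ (cluster ω x).encard}

/-- The mean cluster size `E_p |K_x|`. -/
noncomputable def meanSize {V : Type} (G : SimpleGraph V) (x : V) (p : unitInterval) : ENNReal :=
  ∫⁻ ω, (((cluster ω x).encard : ℕ∞) : ENNReal) ∂(setBernoulli G.edgeSet p)

/-- The event that there is exactly one infinite open cluster: some cluster is infinite, and any
two vertices in infinite clusters are in the same cluster. -/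
def uniqueInfiniteCluster (V : Type) : Set (Set (Sym2 V)) :=
  {ω | (∃ x : V, (cluster ω x).Infinite) ∧
    ∀ x y : V, (cluster ω x).Infinite → (cluster ω y).Infinite → cluster ω x = cluster ω y}

end Vale.Agent.P151.H648
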