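import Vale.Agent.P151.H648.NonAm

/-!
# Critical exponents on nonamenable graphs
-/

open Finset MeasureTheory ProbabilityTheory
open scoped ENNReal

set_option linter.unusedSectionVars false

namespace Vale.Agent.P151.H648

open Vale.Agent.P151
open Vale.Agent.P165 (vertexCheeger)
open Vale.Agent.P165.LF (Sub chi vol sub_of_lt_pc one_le_chi chi_mono csz_le_chi)

variable {V : Type} [DecidableEq V] {G : SimpleGraph V}

/-- The tail at `p_c`: `P(|K_x| ≥ n) ≤ C n^{-1/2 + ε}`. -/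
theorem tail_crit [G.LocallyFinite] [Infinite V] (hG : G.Connected)
    (hqt : Vale.Agent.P165.IsQuasiTransitive G) {b : ℝ} (hb0 : 0 < b) (hb1 : b < 1)
    (hb : b ≤ Vale.Agent.P165.pc G)
    (hchi : ∀ γ : ℝ, 1 < γ → ∃ C : ℝ, 0 < C ∧ ∀ q, 0 ≤ q → q < b →
      chi G q ≤ C * (b - q) ^ (-γ)) {ε : ℝ} (hε : 0 < ε) (hε1 : ε < 1) :
    ∃ C : ℝ, 0 < C ∧ ∀ n : ℕ, 1 ≤ n → ∀ p, 0 ≤ p → p ≤ b → ∀ x,
      phiB G n x p ≤ C * (n : ℝ) ^ (-(1 / 2) + ε) := by
  obtain ⟨C, hC, hX⟩ := hchi (1 + ε) (by linarith)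
  have hk : 1 < 1 / ε := by rw [lt_div_iff₀ hε]; linarith
  obtain ⟨C', hC', ht⟩ := tail_near hG hqt hb0 hb1 hb hC hk hX
  set δ0 := min (b / 2) ((1 - b) / 2) with hδ0
  have h1b : 0 < 1 - b := by linarith
  have hδ00 : 0 < δ0 := lt_min (by linarith) (by linarith)
  have hδb : δ0 ≤ b / 2 := min_le_left _ _
  have hδb' : δ0 ≤ (1 - b) / 2 := min_le_right _ _
  refine ⟨C' * (δ0 ^ (-(1 + ε))) ^ (1 - ε), by positivity, fun n hn p hp0 hpb x => ?_⟩
  have hn0 : (0 : ℝ) < n := by exact_mod_cast hn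
  have hn1 : (1 : ℝ) ≤ n := by exact_mod_cast hn
  have hs0 : 0 < √(n : ℝ) := Real.sqrt_pos.2 hn0
  have hs1 : 1 ≤ √(n : ℝ) := Real.one_le_sqrt.2 hn1
  have hδ : 0 < δ0 / √(n : ℝ) := by positivity
  have hδle : δ0 / √(n : ℝ) ≤ δ0 := div_le_self hδ00.le hs1
  have h1 := ht (δ0 / √(n : ℝ)) hδ (hδle.trans hδb) (hδle.trans hδb') n hn (by
    rw [div_pow, Real.sq_sqrt hn0.le, mul_div_cancel₀ _ hn0.ne']
    nlinarith) x
  have h2 : phiB G n x p ≤ phiB G n x (b + δ0 / √(n : ℝ)) :=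
    phiB_mono hp0 (by linarith) (by linarith) n x
  refine h2.trans (h1.trans ?_)
  rw [mul_assoc]
  refine mul_le_mul_of_nonneg_left ?_ hC'.le
  rw [one_div_one_div]
  have h3 : (δ0 / √(n : ℝ)) ^ (-(1 + ε)) / n =
      δ0 ^ (-(1 + ε)) * (n : ℝ) ^ ((1 + ε) / 2 - 1) := by
    rw [Real.div_rpow hδ00.le hs0.le, Real.sqrt_eq_rpow, ← Real.rpow_mul hn0.le, div_div,
      ← Real.rpow_add_one hn0.ne', div_eq_mul_inv, ← Real.rpow_neg hn0.le]
    congr 2
    ring
  rw [h3, Real.mul_rpow (by positivity) (by positivity)]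
  refine mul_le_mul_of_nonneg_left ?_ (by positivity)
  rw [← Real.rpow_mul hn0.le]
  refine Real.rpow_le_rpow_of_exponent_le hn1 ?_
  nlinarith [sq_nonneg ε]

/-- The percolation probability above `p_c`: `θ(p) ≤ C (p - p_c)^{1 - ε}`. -/
theorem theta_upper [G.LocallyFinite] [Infinite V] (hG : G.Connected)
    (hqt : Vale.Agent.P165.IsQuasiTransitive G) {b : ℝ} (hb0 : 0 < b) (hb1 : b < 1)
    (hb : b ≤ Vale.Agent.P165.pc G)
    (hchi : ∀ γ : ℝ, 1 < γ → ∃ C : ℝ, 0 < C ∧ ∀ q, 0 ≤ q → q < b →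
      chi G q ≤ C * (b - q) ^ (-γ)) {ε : ℝ} (hε : 0 < ε) (hε1 : ε < 1) :
    ∃ C : ℝ, 0 < C ∧ ∀ p : unitInterval, b < p → ∀ x,
      theta G x p ≤ C * ((p : ℝ) - b) ^ (1 - ε) := by
  obtain ⟨C, hC, hX⟩ := hchi (1 + ε / 2) (by linarith)
  have hk : 1 < 1 / (ε / 2) := by rw [lt_div_iff₀ (by positivity)]; linarith
  obtain ⟨C', hC', ht⟩ := tail_near hG hqt hb0 hb1 hb hC hk hX
  set δ0 := min (b / 2) ((1 - b) / 2) with hδ0
  have h1b : 0 < 1 - b := by linarith
  have hδ00 : 0 < δ0 := lt_min (by linarith) (by linarith)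
  have hδb : δ0 ≤ b / 2 := min_le_left _ _
  have hδb' : δ0 ≤ (1 - b) / 2 := min_le_right _ _
  refine ⟨C' + (δ0 ^ (1 - ε))⁻¹, by positivity, fun p hp x => ?_⟩
  have hδ : 0 < (p : ℝ) - b := by linarith
  have hp0 : 0 < ((p : ℝ) - b) ^ (1 - ε) := Real.rpow_pos_of_pos hδ _
  rcases le_or_gt ((p : ℝ) - b) δ0 with hle | hgt
  · set δ := (p : ℝ) - b with hδdef
    have hδ1 : δ < 1 := by linarith
    have hδsq : 0 < δ ^ 2 := by positivity
    have hδsq1 : δ ^ 2 ≤ 1 := by nlinarith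
    set n := ⌊2 / δ ^ 2⌋₊ with hn
    have h2δ : 0 ≤ 2 / δ ^ 2 := by positivity
    have hn1 : (n : ℝ) ≤ 2 / δ ^ 2 := Nat.floor_le h2δ
    have hn2 : 2 / δ ^ 2 < n + 1 := Nat.lt_floor_add_one _
    have h1δ : 1 ≤ 1 / δ ^ 2 := by rw [le_div_iff₀ hδsq]; linarith
    have hn3 : 1 / δ ^ 2 ≤ n := by
      have : 2 / δ ^ 2 = 1 / δ ^ 2 + 1 / δ ^ 2 := by ring
      linarith
    have hn4 : 1 ≤ n := by
      have : (1 : ℝ) ≤ n := h1δ.trans hn3
      exact_mod_cast this
    have hn0 : (0 : ℝ) < n := by exact_mod_cast hn4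
    have h1 := ht δ hδ (hle.trans hδb) (hle.trans hδb') n hn4 (by
      rw [le_div_iff₀ hδsq] at hn1
      exact hn1) x
    have hbp : b + δ = p := by rw [hδdef]; ring
    rw [hbp] at h1
    have h2 : theta G x p ≤ phiB G n x p := theta_le_phiB hG n x p
    have hθ : 0 ≤ 1 - 1 / (1 / (ε / 2)) := by rw [one_div_one_div]; linarith
    have h3 : (δ ^ (-(1 + ε / 2)) / n) ^ (1 - 1 / (1 / (ε / 2))) ≤ δ ^ (1 - ε) := by
      have h4 : δ ^ (-(1 + ε / 2)) / n ≤ δ ^ (1 - ε / 2) := by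
        rw [div_le_iff₀ hn0]
        have h5 : δ ^ (-(1 + ε / 2)) = δ ^ (1 - ε / 2) * (1 / δ ^ 2) := by
          rw [show (1 : ℝ) / δ ^ 2 = δ ^ (-2 : ℝ) by
            rw [Real.rpow_neg hδ.le, one_div]; norm_cast, ← Real.rpow_add hδ]
          congr 1
          ring
        rw [h5]
        exact mul_le_mul_of_nonneg_left hn3 (by positivity)
      refine (Real.rpow_le_rpow (by positivity) h4 hθ).trans ?_
      rw [← Real.rpow_mul hδ.le, one_div_one_div]
      refine Real.rpow_le_rpow_of_exponent_ge hδ hδ1.le ?_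
      nlinarith [sq_nonneg ε]
    have h6 : 0 < (δ0 ^ (1 - ε))⁻¹ := by positivity
    calc theta G x p ≤ C' * (δ ^ (-(1 + ε / 2)) / n) ^ (1 - 1 / (1 / (ε / 2))) := h2.trans h1
      _ ≤ C' * δ ^ (1 - ε) := mul_le_mul_of_nonneg_left h3 hC'.le
      _ ≤ _ := mul_le_mul_of_nonneg_right (by linarith) hp0.le
  · have h1 : theta G x p ≤ 1 := by
      have h := theta_le_phiB hG 1 x p
      exact h.trans (phiB_le_one p.2.1 p.2.2 1 x)
    have h2 : δ0 ^ (1 - ε) ≤ ((p : ℝ) - b) ^ (1 - ε) :=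
      Real.rpow_le_rpow hδ00.le hgt.le (by linarith)
    have h3 : 0 < δ0 ^ (1 - ε) := Real.rpow_pos_of_pos hδ00 _
    have h4 : 1 ≤ (δ0 ^ (1 - ε))⁻¹ * ((p : ℝ) - b) ^ (1 - ε) := by
      rw [inv_mul_eq_div, le_div_iff₀ h3, one_mul]
      exact h2
    have h5 : 0 ≤ C' * ((p : ℝ) - b) ^ (1 - ε) := by positivity
    linarith

/-- `E_p |K_x| ≤ χ(p)`. -/
theorem mean_le_chi [G.LocallyFinite] (hG : G.Connected) (p : unitInterval)
    (hs : Sub G p) (x : V) :
    ∫⁻ ω, (((cluster ω x).encard : ℕ∞) : ℝ≥0∞) ∂(setBernoulli G.edgeSet p) ≤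
      ENNReal.ofReal (chi G p) := by
  have hcl : ∀ ω : Set (Sym2 V), (((cluster ω x).encard : ℕ∞) : ℝ≥0∞) =
      ∑' n : ℕ, (bigC (n + 1) x).indicator 1 ω := by
    intro ω
    have hind : ∀ n : ℕ, (bigC (n + 1) x).indicator (1 : Set (Sym2 V) → ℝ≥0∞) ω =
        if ((n + 1 : ℕ) : ℕ∞) ≤ (cluster ω x).encard then 1 else 0 := by
      intro n
      by_cases h : ((n + 1 : ℕ) : ℕ∞) ≤ (cluster ω x).encard
      · rw [if_pos h, Set.indicator_of_mem (show ω ∈ bigC (n + 1) x from h)]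
        rfl
      · rw [if_neg h, Set.indicator_of_notMem (show ω ∉ bigC (n + 1) x from h)]
    simp only [hind]
    by_cases htop : (cluster ω x).encard = ⊤
    · rw [htop]
      have : ∀ n : ℕ, (if ((n + 1 : ℕ) : ℕ∞) ≤ ⊤ then (1 : ℝ≥0∞) else 0) = 1 := fun n => by
        rw [if_pos le_top]
      simp only [this]
      rw [ENNReal.tsum_const_eq_top_of_ne_zero one_ne_zero]
      rfl
    · obtain ⟨m, hm⟩ := ENat.ne_top_iff_exists.1 htop
      rw [← hm]
      have h1 : ∀ n : ℕ, n ∉ Finset.range m →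
          (if ((n + 1 : ℕ) : ℕ∞) ≤ (m : ℕ∞) then (1 : ℝ≥0∞) else 0) = 0 := by
        intro n hn
        rw [Finset.mem_range, not_lt] at hn
        rw [if_neg]
        intro h
        have h2 : n + 1 ≤ m := by exact_mod_cast h
        omega
      rw [tsum_eq_sum h1]
      rw [Finset.sum_congr rfl fun n hn => by
        rw [if_pos]
        rw [Finset.mem_range] at hn
        exact_mod_cast hn]
      simp
  simp only [hcl]
  rw [lintegral_tsum fun n =>
    (measurable_one.aemeasurable.indicator₀ (nullMeasurableSet_bigC G hG p (n + 1) x))]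
  rw [ENNReal.tsum_eq_iSup_nat]
  refine iSup_le fun N => ?_
  have h1 : ∀ n : ℕ, ∫⁻ ω, (bigC (n + 1) x).indicator 1 ω ∂(setBernoulli G.edgeSet p) =
      ENNReal.ofReal (phiB G (n + 1) x p) := by
    intro n
    rw [lintegral_indicator_one₀ (nullMeasurableSet_bigC G hG p (n + 1) x),
      ← measureReal_bigC G hG, measureReal_def, ENNReal.ofReal_toReal (measure_ne_top _ _)]
  simp only [h1]
  rw [← ENNReal.ofReal_sum_of_nonneg fun n _ => phiB_nonneg p.2.1 p.2.2 (n + 1) x]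
  refine ENNReal.ofReal_le_ofReal ?_
  refine le_trans ?_ (csz_le_chi hs x (ballF G x (N + 1)))
  calc ∑ n ∈ Finset.range N, phiB G (n + 1) x p
      ≤ ∑ n ∈ Finset.range N, Ex (p : ℝ) (edgesIn G (ballF G x (N + 1))) (big (n + 1) x) := by
        refine Finset.sum_le_sum fun n hn => ?_
        rw [Finset.mem_range] at hn
        exact Ex_edgesIn_mono p.2.1 p.2.2 (big_mono (n + 1) x) (ballF_mono G x (by omega))
    _ = Ex (p : ℝ) (edgesIn G (ballF G x (N + 1)))
          (fun S => ∑ n ∈ Finset.range N, big (n + 1) x S) := (Ex_sum _ _ _ _).symm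
    _ ≤ _ := Ex_mono p.2.1 p.2.2 fun S _ => by
        have h2 : ∀ M : ℕ, ∑ n ∈ Finset.range M, big (n + 1) x S ≤ min (M : ℝ) (csz S x : ℝ) := by
          intro M
          induction M with
          | zero => simp
          | succ M ih =>
            rw [Finset.sum_range_succ]
            unfold big
            unfold big at ih
            by_cases h : M + 1 ≤ csz S x
            · rw [if_pos h]
              have h3 : ((M + 1 : ℕ) : ℝ) ≤ csz S x := by exact_mod_cast h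
              rw [min_eq_left h3]
              have h4 := ih.trans (min_le_left _ _)
              push_cast
              linarith
            · rw [if_neg h, add_zero]
              have h3 : (csz S x : ℝ) ≤ M := by
                have : csz S x ≤ M := by omega
                exact_mod_cast this
              refine ih.trans ?_
              rw [min_eq_right h3, min_eq_right]
              push_cast
              linarith
        exact (h2 N).trans (min_le_right _ _)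

/-- Finite graphs are amenable. -/
theorem infinite_of_not_amenable {V : Type} (G : SimpleGraph V) (hG : G.Connected)
    (hna : ¬ IsAmenable G) : Infinite V := by
  by_contra hfin
  rw [not_infinite_iff_finite] at hfin
  have : Fintype V := Fintype.ofFinite V
  apply hna
  intro ε hε
  have hne : Nonempty V := hG.nonempty
  refine ⟨Finset.univ, Finset.univ_nonempty, ?_⟩
  have h1 : outerBoundary G (Finset.univ : Finset V) = ∅ := by
    ext y
    simp [outerBoundary]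
  rw [h1]
  simp only [Set.ncard_empty, Nat.cast_zero]
  positivity

theorem cheeger_pos {V : Type} (G : SimpleGraph V) (hG : G.Connected)
    (hna : ¬ IsAmenable G) : 0 < vertexCheeger G := by
  unfold IsAmenable at hna
  push Not at hna
  obtain ⟨ε, hε, h⟩ := hna
  have hne : Nonempty V := hG.nonempty
  obtain ⟨o⟩ := hne
  have hne2 : Nonempty {A : Finset V // A.Nonempty} := ⟨⟨{o}, Finset.singleton_nonempty o⟩⟩
  refine hε.trans_le (le_ciInf fun A => ?_)
  have hA : (0 : ℝ) < A.1.card := by exact_mod_cast A.2.card_pos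
  rw [le_div_iff₀ hA]
  exact (h A.1 A.2).le

/-- **Mean-field exponents on nonamenable graphs.** -/
theorem nonamenable_exponents {V : Type} (G : SimpleGraph V) [G.LocallyFinite]
    (hG : G.Connected) (hqt : IsQuasiTransitive G) (hna : ¬ IsAmenable G)
    (hpc0 : 0 < pc G) (hpc1 : pc G < 1) {ε : ℝ} (hε : 0 < ε) (hε1 : ε < 1) :
    ∃ C : ℝ, 0 < C ∧ ∀ x : V,
      (∀ p : unitInterval, (p : ℝ) ≤ pc G → ∀ n : ℕ, 1 ≤ n →
        (setBernoulli G.edgeSet p).real {ω | (n : ℕ∞) ≤ (cluster ω x).encard} ≤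
          C * (n : ℝ) ^ (-(1 / 2) + ε)) ∧
      (∀ p : unitInterval, pc G < p → theta G x p ≤ C * ((p : ℝ) - pc G) ^ (1 - ε)) ∧
      (∀ p : unitInterval, (p : ℝ) < pc G →
        ∫⁻ ω, (((cluster ω x).encard : ℕ∞) : ℝ≥0∞) ∂(setBernoulli G.edgeSet p) ≤
          ENNReal.ofReal (C * (pc G - (p : ℝ)) ^ (-(1 + ε)))) := by
  classical
  have hinf := infinite_of_not_amenable G hG hna
  have hch := cheeger_pos G hG hna
  have he : Vale.Agent.P165.pc G = pc G := NA.pc_eq G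
  have hchi : ∀ γ : ℝ, 1 < γ → ∃ C : ℝ, 0 < C ∧ ∀ q, 0 ≤ q → q < pc G →
      chi G q ≤ C * (pc G - q) ^ (-γ) := by
    intro γ hγ
    have h := chi_bound hG hqt hch (he ▸ hpc0) (he ▸ hpc1) hγ
    rw [he] at h
    exact h
  obtain ⟨C1, hC1, h1⟩ := tail_crit hG hqt hpc0 hpc1 he.ge hchi hε hε1
  obtain ⟨C2, hC2, h2⟩ := theta_upper hG hqt hpc0 hpc1 he.ge hchi hε hε1
  obtain ⟨C3, hC3, h3⟩ := hchi (1 + ε) (by linarith)
  refine ⟨C1 + C2 + C3, by positivity, fun x => ⟨fun p hp n hn => ?_, fun p hp => ?_,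
    fun p hp => ?_⟩⟩
  · have h4 := h1 n hn p p.2.1 hp x
    have h5 := measureReal_bigC G hG p n x
    unfold bigC at h5
    rw [h5]
    refine h4.trans (mul_le_mul_of_nonneg_right (by linarith) ?_)
    exact Real.rpow_nonneg (Nat.cast_nonneg _) _
  · refine (h2 p hp x).trans (mul_le_mul_of_nonneg_right (by linarith) ?_)
    exact Real.rpow_nonneg (by linarith) _
  · have hs : Sub G (p : ℝ) := sub_of_lt_pc hG hqt p.2.1 (he ▸ hp) p.2.2
    refine (mean_le_chi hG p hs x).trans (ENNReal.ofReal_le_ofReal ?_)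
    refine (h3 p p.2.1 hp).trans (mul_le_mul_of_nonneg_right (by linarith) ?_)
    exact Real.rpow_nonneg (by linarith) _

end Vale.Agent.P151.H648
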