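import Vale.Agent.P151.H648.Expo

/-!
# Lower bounds for the critical tail and the mean cluster size
-/

open Finset MeasureTheory ProbabilityTheory
open scoped ENNReal

set_option linter.unusedSectionVars false

namespace Vale.Agent.P151.H648

open Vale.Agent.P151

variable {V : Type} [DecidableEq V] {G : SimpleGraph V}

lemma le_of_le_rpow {y z σ : ℝ} (hσ : 0 < σ) (hy : 0 ≤ y) (hz : 0 ≤ z) (h : z ≤ y ^ (1 / σ)) :
    z ^ σ ≤ y := by
  have h1 := Real.rpow_le_rpow hz h hσ.le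
  rwa [← Real.rpow_mul hy, one_div_mul_cancel hσ.ne', Real.rpow_one] at h1

/-- The tail at `p_c` is at least `c n^{-1/2 - ε}`. -/
theorem tail_lower [G.LocallyFinite] (hG : G.Connected) {d : ℕ} (hd : ∀ v, G.degree v ≤ d)
    {b : ℝ} (hb0 : 0 < b) (hb1 : b < 1) {x : V} {c : ℝ} (hc : 0 < c)
    (hmf : ∀ p : unitInterval, b ≤ p → c * (p - b) ≤ theta G x p) {ε : ℝ} (hε : 0 < ε) :
    ∃ c' : ℝ, 0 < c' ∧ ∀ n : ℕ, 1 ≤ n → c' * (n : ℝ) ^ (-(1 / 2) - ε) ≤ phiB G n x b := by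
  have h1b : 0 < 1 - b := by linarith
  set σ := 1 + 2 * ε with hσ
  have hσ1 : 1 < σ := by linarith
  have hσ0 : 0 < σ := by linarith
  set k := σ / (σ - 1) with hkdef
  have hk : 1 < k := by rw [hkdef, lt_div_iff₀ (by linarith)]; linarith
  have hk0 : 0 < k := by linarith
  have hθ : 1 - 1 / k = 1 / σ := by
    have : σ - 1 ≠ 0 := by linarith
    rw [hkdef]
    field_simp
    ring
  set δ0 := (1 - b) / 2 with hδ0
  have hδ00 : 0 < δ0 := by positivity
  set D : ℝ := d / (b * ((1 - b) / 2)) ^ 2 with hD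
  have hD0 : 0 ≤ D := by positivity
  set E := Real.exp (D * k * δ0 ^ 2) with hE
  have hE0 : 0 < E := Real.exp_pos _
  refine ⟨(c * δ0 / E) ^ σ, by positivity, fun n hn => ?_⟩
  have hn0 : (0 : ℝ) < n := by exact_mod_cast hn
  have hn1 : (1 : ℝ) ≤ n := by exact_mod_cast hn
  have hs0 : 0 < √(n : ℝ) := Real.sqrt_pos.2 hn0
  have hs1 : 1 ≤ √(n : ℝ) := Real.one_le_sqrt.2 hn1
  set δ := δ0 / √(n : ℝ) with hδdef
  have hδ : 0 < δ := by positivity
  have hδle : δ ≤ δ0 := div_le_self hδ00.le hs1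
  have hnδ : n * δ ^ 2 = δ0 ^ 2 := by
    rw [hδdef, div_pow, Real.sq_sqrt hn0.le, mul_div_cancel₀ _ hn0.ne']
  have hp0 : 0 ≤ b + δ := by linarith
  have hp1 : b + δ < 1 := by linarith
  have h1 := hmf ⟨b + δ, hp0, hp1.le⟩ (by change b ≤ b + δ; linarith)
  have h2 := theta_le_phiB hG n x ⟨b + δ, hp0, hp1.le⟩
  have h3 := tail_compare (a := b) (k := k) (q := b) (b := b + δ) hb0 hk le_rfl (by linarith) hp1
    (Λ := edgesIn G (ballF G x n)) hn
    (fun v => (NA.card_filter_edgesIn_le' _ v).trans (hd v)) x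
  have h4 : (d : ℝ) / (b * (1 - (b + δ))) ^ 2 * n * k * (b + δ - b) ^ 2 ≤ D * k * δ0 ^ 2 := by
    have h8 : (d : ℝ) / (b * (1 - (b + δ))) ^ 2 ≤ D := by
      rw [hD]
      refine div_le_div_of_nonneg_left (by positivity) (by positivity) ?_
      refine pow_le_pow_left₀ (by positivity) ?_ 2
      exact mul_le_mul_of_nonneg_left (by linarith) hb0.le
    rw [add_sub_cancel_left, ← hnδ]
    calc (d : ℝ) / (b * (1 - (b + δ))) ^ 2 * n * k * δ ^ 2
        = (d : ℝ) / (b * (1 - (b + δ))) ^ 2 * (k * (n * δ ^ 2)) := by ring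
      _ ≤ D * (k * (n * δ ^ 2)) := mul_le_mul_of_nonneg_right h8 (by positivity)
      _ = _ := by ring
  have h5 := Real.exp_le_exp.2 h4
  rw [hθ] at h3
  have hy : 0 ≤ phiB G n x b := phiB_nonneg hb0.le hb1.le n x
  have h6 : c * δ ≤ (phiB G n x b) ^ (1 / σ) * E := by
    have e1 : c * δ ≤ phiB G n x (b + δ) := by
      refine le_trans (le_of_eq ?_) (h1.trans h2)
      change c * δ = c * (b + δ - b)
      ring
    exact e1.trans (h3.trans (mul_le_mul_of_nonneg_left h5 (Real.rpow_nonneg hy _)))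
  have h7 : c * δ / E ≤ (phiB G n x b) ^ (1 / σ) := by
    rw [div_le_iff₀ hE0]
    exact h6
  have h8 := le_of_le_rpow hσ0 hy (by positivity) h7
  refine le_trans (le_of_eq ?_) h8
  have e2 : c * δ / E = (c * δ0 / E) * (n : ℝ) ^ (-(1 / 2) : ℝ) := by
    rw [hδdef, Real.sqrt_eq_rpow, Real.rpow_neg hn0.le]
    ring
  rw [e2, Real.mul_rpow (by positivity) (by positivity), ← Real.rpow_mul hn0.le]
  congr 2
  rw [hσ]
  ring

/-- Lower bound for the mean cluster size below `p_c`. -/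
theorem mean_lower [G.LocallyFinite] (hG : G.Connected) {d : ℕ} (hd : ∀ v, G.degree v ≤ d)
    {b : ℝ} (hb0 : 0 < b) (hb1 : b < 1) {x : V}
    (htail : ∀ ε : ℝ, 0 < ε → ∃ c' : ℝ, 0 < c' ∧ ∀ n : ℕ, 1 ≤ n →
      c' * (n : ℝ) ^ (-(1 / 2) - ε) ≤ phiB G n x b) {ε : ℝ} (hε : 0 < ε) (hε1 : ε < 1) :
    ∃ c : ℝ, 0 < c ∧ ∀ p : unitInterval, (p : ℝ) < b →
      ENNReal.ofReal (c * (b - (p : ℝ)) ^ (-(1 - ε))) ≤
        ∫⁻ ω, (((cluster ω x).encard : ℕ∞) : ℝ≥0∞) ∂(setBernoulli G.edgeSet p) := by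
  have h1b : 0 < 1 - b := by linarith
  set η := ε / 8 with hη
  have hη0 : 0 < η := by positivity
  obtain ⟨c', hc', ht⟩ := htail η hη0
  set σ := 1 + 2 * η with hσ
  have hσ1 : 1 < σ := by linarith
  have hσ0 : 0 < σ := by linarith
  set k := σ / (σ - 1) with hkdef
  have hk : 1 < k := by rw [hkdef, lt_div_iff₀ (by linarith)]; linarith
  have hk0 : 0 < k := by linarith
  have hθ : 1 - 1 / k = 1 / σ := by
    have : σ - 1 ≠ 0 := by linarith
    rw [hkdef]
    field_simp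
    ring
  set D : ℝ := d / (b / 2 * (1 - b)) ^ 2 with hD
  have hD0 : 0 ≤ D := by positivity
  set E := Real.exp (D * k) with hE
  have hE0 : 0 < E := Real.exp_pos _
  -- Markov's inequality
  have hmarkov : ∀ (p : unitInterval) (n : ℕ), ENNReal.ofReal (n * phiB G n x p) ≤
      ∫⁻ ω, (((cluster ω x).encard : ℕ∞) : ℝ≥0∞) ∂(setBernoulli G.edgeSet p) := by
    intro p n
    have e1 : ENNReal.ofReal (n * phiB G n x p) =
        ∫⁻ ω, (bigC n x).indicator (fun _ => (n : ℝ≥0∞)) ω ∂(setBernoulli G.edgeSet p) := by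
      rw [lintegral_indicator_const₀ (nullMeasurableSet_bigC G hG p n x),
        ← measureReal_bigC G hG, ENNReal.ofReal_mul (Nat.cast_nonneg _), ENNReal.ofReal_natCast,
        measureReal_def, ENNReal.ofReal_toReal (measure_ne_top _ _)]
    rw [e1]
    refine lintegral_mono fun ω => ?_
    by_cases h : ω ∈ bigC n x
    · rw [Set.indicator_of_mem h]
      have h2 : (n : ℕ∞) ≤ (cluster ω x).encard := h
      have h3 := ENat.toENNReal_le.2 h2
      rw [ENat.toENNReal_coe] at h3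
      exact h3
    · rw [Set.indicator_of_notMem h]
      exact bot_le
  set c1 := (c' / E) ^ σ * (2 : ℝ) ^ (-((1 + ε) : ℝ)) with hc1
  have hc10 : 0 < c1 := by positivity
  refine ⟨min c1 (b / 2), lt_min hc10 (by linarith), fun p hp => ?_⟩
  have hδ : 0 < b - (p : ℝ) := by linarith
  set δ := b - (p : ℝ) with hδdef
  have hδ1 : δ < 1 := by linarith [p.2.1]
  have hmin0 : 0 < min c1 (b / 2) := lt_min hc10 (by linarith)
  rcases le_or_gt (b / 2) (p : ℝ) with hpb | hpb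
  · -- near `p_c`
    have hδsq : 0 < δ ^ 2 := by positivity
    have hδsq1 : δ ^ 2 ≤ 1 := by nlinarith
    have h1δ : 1 ≤ 1 / δ ^ 2 := by rw [le_div_iff₀ hδsq]; linarith
    set n := ⌊1 / δ ^ 2⌋₊ with hn
    have hn1 : (n : ℝ) ≤ 1 / δ ^ 2 := Nat.floor_le (by positivity)
    have hn4 : 1 ≤ n := Nat.one_le_floor_iff _ |>.2 h1δ
    have hn0 : (0 : ℝ) < n := by exact_mod_cast hn4
    have hn1' : (1 : ℝ) ≤ n := by exact_mod_cast hn4
    have hn2 : 1 / δ ^ 2 < n + 1 := Nat.lt_floor_add_one _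
    have hn3 : 1 / (2 * δ ^ 2) ≤ n := by
      have : 1 / δ ^ 2 = 2 * (1 / (2 * δ ^ 2)) := by field_simp
      linarith
    have hnδ : n * δ ^ 2 ≤ 1 := by
      rw [le_div_iff₀ hδsq] at hn1
      exact hn1
    have h3 := tail_compare (a := b / 2) (k := k) (q := p) (b := b) (by positivity) hk hpb hp.le
      hb1 (Λ := edgesIn G (ballF G x n)) hn4
      (fun v => (NA.card_filter_edgesIn_le' _ v).trans (hd v)) x
    have h4 : (d : ℝ) / (b / 2 * (1 - b)) ^ 2 * n * k * (b - p) ^ 2 ≤ D * k := by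
      calc (d : ℝ) / (b / 2 * (1 - b)) ^ 2 * n * k * (b - p) ^ 2
          = D * k * (n * δ ^ 2) := by rw [hD, hδdef]; ring
        _ ≤ D * k * 1 := mul_le_mul_of_nonneg_left hnδ (by positivity)
        _ = _ := mul_one _
    have h5 := Real.exp_le_exp.2 h4
    rw [hθ] at h3
    have hy : 0 ≤ phiB G n x p := phiB_nonneg p.2.1 p.2.2 n x
    have h6 : c' * (n : ℝ) ^ (-(1 / 2) - η) ≤ (phiB G n x p) ^ (1 / σ) * E :=
      (ht n hn4).trans (h3.trans (mul_le_mul_of_nonneg_left h5 (Real.rpow_nonneg hy _)))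
    have h7 : c' * (n : ℝ) ^ (-(1 / 2) - η) / E ≤ (phiB G n x p) ^ (1 / σ) := by
      rw [div_le_iff₀ hE0]
      exact h6
    have h8 := le_of_le_rpow hσ0 hy (by positivity) h7
    have e2 : (c' * (n : ℝ) ^ (-(1 / 2) - η) / E) ^ σ =
        (c' / E) ^ σ * (n : ℝ) ^ ((-(1 / 2) - η) * σ) := by
      rw [mul_div_right_comm, Real.mul_rpow (by positivity) (by positivity),
        ← Real.rpow_mul hn0.le]
    rw [e2] at h8
    refine le_trans ?_ (hmarkov p n)
    refine ENNReal.ofReal_le_ofReal ?_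
    have h9 : c1 * δ ^ (-(1 - ε)) ≤ n * phiB G n x p := by
      have e3 : (n : ℝ) * ((c' / E) ^ σ * (n : ℝ) ^ ((-(1 / 2) - η) * σ)) =
          (c' / E) ^ σ * (n : ℝ) ^ (1 + (-(1 / 2) - η) * σ) := by
        rw [Real.rpow_add hn0, Real.rpow_one]
        ring
      refine le_trans ?_ ((le_of_eq e3.symm).trans (mul_le_mul_of_nonneg_left h8 hn0.le))
      rw [hc1, mul_assoc]
      refine mul_le_mul_of_nonneg_left ?_ (by positivity)
      -- `n ^ e ≥ (1 / (2 δ²)) ^ ((1 - ε) / 2)`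
      have h10 : (n : ℝ) ^ ((1 - ε) / 2) ≤ (n : ℝ) ^ (1 + (-(1 / 2) - η) * σ) := by
        refine Real.rpow_le_rpow_of_exponent_le hn1' ?_
        rw [hσ, hη]
        nlinarith [sq_nonneg ε]
      refine le_trans ?_ h10
      have h11 : (1 / (2 * δ ^ 2)) ^ ((1 - ε) / 2) ≤ (n : ℝ) ^ ((1 - ε) / 2) :=
        Real.rpow_le_rpow (by positivity) hn3 (by linarith)
      refine le_trans ?_ h11
      have e4 : (1 / (2 * δ ^ 2)) ^ ((1 - ε) / 2) = (2 : ℝ) ^ (-((1 - ε) / 2)) * δ ^ (-(1 - ε)) := by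
        rw [one_div, Real.inv_rpow (by positivity), Real.mul_rpow (by norm_num) (by positivity),
          ← Real.rpow_natCast δ 2, ← Real.rpow_mul hδ.le, mul_inv, Real.rpow_neg (by norm_num),
          Real.rpow_neg hδ.le]
        congr 3
        push_cast
        ring
      rw [e4]
      refine mul_le_mul_of_nonneg_right ?_ (by positivity)
      exact Real.rpow_le_rpow_of_exponent_le (by norm_num) (by linarith)
    refine le_trans ?_ h9
    exact mul_le_mul_of_nonneg_right (min_le_left _ _) (by positivity)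
  · -- far from `p_c`
    refine le_trans ?_ (hmarkov p 1)
    refine ENNReal.ofReal_le_ofReal ?_
    rw [phiB_one]
    have h1 : b / 2 ≤ δ := by linarith
    have h2 : δ ^ (-(1 - ε)) ≤ (b / 2) ^ (-(1 - ε)) :=
      Real.rpow_le_rpow_of_nonpos (by linarith) h1 (by linarith)
    have h3 : (b / 2) ^ (-(1 - ε)) ≤ (b / 2) ^ (-1 : ℝ) :=
      Real.rpow_le_rpow_of_exponent_ge (by linarith) (by linarith) (by linarith)
    have h4 : (b / 2) * (b / 2) ^ (-1 : ℝ) = 1 := by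
      rw [Real.rpow_neg_one, mul_inv_cancel₀ (by linarith)]
    calc min c1 (b / 2) * δ ^ (-(1 - ε)) ≤ (b / 2) * (b / 2) ^ (-1 : ℝ) :=
          mul_le_mul (min_le_right _ _) (h2.trans h3) (by positivity) (by linarith)
      _ = ((1 : ℕ) : ℝ) * 1 := by rw [h4]; norm_num

end Vale.Agent.P151.H648
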