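import Vale.Agent.P151.H648.Theta

/-!
# `p_c > 0` on graphs of bounded degree, and the mean-field lower bound
-/

open MeasureTheory ProbabilityTheory SimpleGraph Filter Topology unitInterval Finset

set_option linter.unusedSectionVars false

namespace Vale.Agent.P151.H648

open Vale.Agent.P151 Vale.Agent.P151.Red Vale.Agent.P151.Pl

variable {V : Type} [DecidableEq V] {G : SimpleGraph V} [G.LocallyFinite]

/-- There is a trail of length `R` from `x` in `T`. -/
def TR : ℕ → Finset (Sym2 V) → V → Prop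
  | 0, _, _ => True
  | R + 1, T, x => ∃ y, s(x, y) ∈ T ∧ TR R (T.erase s(x, y)) y

theorem TR_of_walk : ∀ (R : ℕ) (T : Finset (Sym2 V)) (x v : V) (w : (gr T).Walk x v),
    w.IsTrail → R ≤ w.length → TR R T x := by
  intro R
  induction R with
  | zero => intro T x v w _ _; trivial
  | succ R ih =>
    intro T x v w hw hR
    cases w with
    | nil => simp at hR
    | @cons _ u _ h w' =>
      rw [Walk.isTrail_cons] at hw
      obtain ⟨hw1, hw2⟩ := hw
      rw [gr_adj] at h
      refine ⟨u, h.1, ?_⟩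
      have hed : ∀ e ∈ w'.edges, e ∈ (gr (T.erase s(x, u))).edgeSet := by
        intro e he
        have h1 := w'.edges_subset_edgeSet he
        have hne : e ≠ s(x, u) := fun h' => hw2 (h' ▸ he)
        induction e with
        | _ a b =>
          rw [SimpleGraph.mem_edgeSet, gr_adj] at h1 ⊢
          exact ⟨Finset.mem_erase.2 ⟨hne, h1.1⟩, h1.2⟩
      refine ih _ _ _ (w'.transfer _ hed) ⟨?_⟩ ?_
      · rw [Walk.edges_transfer]
        exact hw1.edges_nodup
      rw [Walk.length_transfer]
      rw [Walk.length_cons] at hR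
      omega

theorem Pr_exists_le {ι κ : Type} [DecidableEq ι] {p : ℝ} (h0 : 0 ≤ p) (h1 : p ≤ 1)
    (B : Finset ι) (A : Finset κ) (Q : κ → Finset ι → Prop) :
    Pr p B (fun T => ∃ e ∈ A, Q e T) ≤ ∑ e ∈ A, Pr p B (Q e) := by
  unfold Pr
  rw [← Ex_sum]
  refine Ex_mono h0 h1 fun T _ => ?_
  by_cases h : ∃ e ∈ A, Q e T
  · obtain ⟨e, he, hQ⟩ := h
    rw [ind_true ⟨e, he, hQ⟩]
    have := Finset.single_le_sum (f := fun e => ind (Q e T)) (fun _ _ => ind_nonneg _) he
    simp only [ind_true hQ] at this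
    exact this
  · rw [ind_false h]
    exact Finset.sum_nonneg fun _ _ => ind_nonneg _

theorem Pr_TR {p : ℝ} (h0 : 0 ≤ p) (h1 : p ≤ 1) {d : ℕ} : ∀ (R : ℕ) (Λ : Finset (Sym2 V)) (x : V),
    (∀ v, (Λ.filter (fun e => v ∈ e)).card ≤ d) → Pr p Λ (fun T => TR R T x) ≤ (d * p) ^ R := by
  intro R
  induction R with
  | zero =>
    intro Λ x _
    rw [pow_zero]
    exact Pr_le_one h0 h1 _ _
  | succ R ih =>
    intro Λ x hd
    have hdp : 0 ≤ (d : ℝ) * p := by positivity
    calc Pr p Λ (fun T => TR (R + 1) T x)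
        ≤ Pr p Λ (fun T => ∃ e ∈ Λ.filter (fun e => x ∈ e), e ∈ T ∧ ∃ y, e = s(x, y) ∧
            TR R (T.erase e) y) := by
          refine Pr_mono h0 h1 fun T hT h => ?_
          obtain ⟨y, hy, hTR⟩ := h
          exact ⟨s(x, y), Finset.mem_filter.2 ⟨hT hy, Sym2.mem_mk_left _ _⟩, hy, y, rfl, hTR⟩
      _ ≤ ∑ e ∈ Λ.filter (fun e => x ∈ e), Pr p Λ (fun T => e ∈ T ∧ ∃ y, e = s(x, y) ∧
            TR R (T.erase e) y) := Pr_exists_le h0 h1 _ _ _
      _ ≤ ∑ e ∈ Λ.filter (fun e => x ∈ e), p * (d * p) ^ R := by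
          apply Finset.sum_le_sum
          intro e he
          rw [Finset.mem_filter] at he
          obtain ⟨heΛ, hxe⟩ := he
          obtain ⟨y, rfl⟩ := Sym2.mem_iff_exists.1 hxe
          have e1 : Pr p Λ (fun T => s(x, y) ∈ T ∧ ∃ z, s(x, y) = s(x, z) ∧
              TR R (T.erase s(x, y)) z) ≤ Pr p Λ (fun T => {s(x, y)} ⊆ T ∧
              TR R (T.erase s(x, y)) y) := by
            refine Pr_mono h0 h1 fun T _ h => ?_
            obtain ⟨ha, z, hz, hb⟩ := h
            have hzy : y = z := by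
              rw [Sym2.eq_iff] at hz
              rcases hz with ⟨_, h⟩ | ⟨h1, h2⟩
              · exact h
              · rw [h2, h1]
            rw [← hzy] at hb
            exact ⟨Finset.singleton_subset_iff.2 ha, hb⟩
          refine e1.trans ?_
          rw [Pr_open_and p (Finset.singleton_subset_iff.2 heΛ), Finset.card_singleton, pow_one]
          apply mul_le_mul_of_nonneg_left _ h0
          have e2 : Pr p (Λ \ {s(x, y)}) (fun S => TR R (({s(x, y)} ∪ S).erase s(x, y)) y) =
              Pr p (Λ \ {s(x, y)}) (fun S => TR R S y) := by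
            refine Pr_congr fun S hS => ?_
            have : ({s(x, y)} ∪ S).erase s(x, y) = S := by
              ext f
              simp only [Finset.mem_erase, Finset.mem_union, Finset.mem_singleton]
              constructor
              · rintro ⟨h2, h3 | h3⟩
                · exact absurd h3 h2
                · exact h3
              · intro h2
                refine ⟨?_, Or.inr h2⟩
                rintro rfl
                exact (Finset.mem_sdiff.1 (hS h2)).2 (Finset.mem_singleton_self _)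
            rw [this]
          rw [e2]
          apply ih
          intro v
          refine (Finset.card_le_card ?_).trans (hd v)
          intro f hf
          rw [Finset.mem_filter] at hf ⊢
          exact ⟨(Finset.mem_sdiff.1 hf.1).1, hf.2⟩
      _ = ((Λ.filter (fun e => x ∈ e)).card : ℝ) * (p * (d * p) ^ R) := by
          rw [Finset.sum_const, nsmul_eq_mul]
      _ ≤ (d : ℝ) * (p * (d * p) ^ R) := by
          apply mul_le_mul_of_nonneg_right _ (by positivity)
          exact_mod_cast hd x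
      _ = (d * p) ^ (R + 1) := by ring

/-- No infinite cluster for `p < 1 / d`. -/
theorem theta_small (hG : G.Connected) {d : ℕ}
    (hd : ∀ F : Finset V, ∀ v, ((edgesIn G F).filter (fun e => v ∈ e)).card ≤ d) (x : V) {p : I}
    (hp : (d : ℝ) * p < 1) : theta G x p = 0 := by
  have h0 : 0 ≤ (p : ℝ) := p.2.1
  have h1 : (p : ℝ) ≤ 1 := p.2.2
  have hb : ∀ R : ℕ, theta G x p ≤ ((d : ℝ) * p) ^ R := by
    intro R
    refine (real_infC_le hG p x R).trans (le_trans (Pr_mono h0 h1 ?_)
      (Pr_TR h0 h1 R (edgesIn G (ballF G x R)) x (hd _)))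
    rintro T hT ⟨v, hv, hvR⟩
    have hv' : Cn T x v := hv
    obtain ⟨w, hw⟩ := hv'.exists_isPath
    refine TR_of_walk R T x v w hw.isTrail ?_
    have hle : gr T ≤ G := by
      intro a b hab
      rw [gr_adj] at hab
      exact (mk_mem_edgesIn.1 (hT hab.1)).1
    have h2 : G.dist x v ≤ (w.mapLe hle).length := SimpleGraph.dist_le _
    rw [Walk.length_mapLe] at h2
    rw [SimpleGraph.dist_comm] at hvR
    omega
  have hlim : Tendsto (fun R : ℕ => ((d : ℝ) * p) ^ R) atTop (𝓝 0) :=
    tendsto_pow_atTop_nhds_zero_of_lt_one (by positivity) hp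
  exact le_antisymm (ge_of_tendsto' hlim hb) (theta_nonneg x p)

/-- `p_c > 0` on quasi-transitive graphs. -/
theorem pc_pos (hG : G.Connected) [Infinite V] {R : Finset V}
    (hR : ∀ x : V, ∃ y ∈ R, ∃ φ : G ≃g G, φ y = x) : 0 < pc G := by
  obtain ⟨d, hd1, hd⟩ := deg_bound hG hR
  by_contra hcon
  push Not at hcon
  have hd0 : (0 : ℝ) < d := by exact_mod_cast hd1
  have hd1' : (1 : ℝ) ≤ d := by exact_mod_cast hd1
  obtain ⟨o⟩ := hG.nonempty
  have h2 : (1 : ℝ) / (2 * d) ≤ 1 := by
    rw [div_le_one (by positivity)]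
    linarith
  have h3 := theta_pos hG o (p := ⟨1 / (2 * d), by positivity, h2⟩)
    (lt_of_le_of_lt hcon (by show (0 : ℝ) < 1 / (2 * d); positivity))
  have h4 := theta_small hG hd o (p := ⟨1 / (2 * d), by positivity, h2⟩) (by
    show (d : ℝ) * (1 / (2 * d)) < 1
    have : (d : ℝ) * (1 / (2 * d)) = 1 / 2 := by field_simp
    rw [this]; norm_num)
  linarith

/-- **Mean-field lower bound** `θ_x(p) ≥ c (p - p_c)`. -/
theorem mean_field (hG : G.Connected) [Infinite V] {R : Finset V}
    (hR : ∀ x : V, ∃ y ∈ R, ∃ φ : G ≃g G, φ y = x) (x : V) :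
    ∃ c : ℝ, 0 < c ∧ ∀ p : I, pc G ≤ p → c * (p - pc G) ≤ theta G x p := by
  have hR' : ∀ x : V, ∃ g : G ≃g G, g x ∈ R := by
    intro x
    obtain ⟨y, hy, φ, rfl⟩ := hR x
    exact ⟨φ.symm, by simpa using hy⟩
  have hRne : R.Nonempty := by
    obtain ⟨y, hy, _⟩ := hR x
    exact ⟨y, hy⟩
  have hpc := pc_pos hG hR
  have hcard : (1 : ℝ) ≤ R.card := by exact_mod_cast hRne.card_pos
  set c0 : ℝ := 1 / (64 * (R.card : ℝ) ^ 4) with hc0
  have hc0pos : 0 < c0 := by positivity
  set M : ℝ := ∑ o ∈ R, 1 / (pc G) ^ (G.dist o x) with hM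
  have hMpos : 0 < M := Finset.sum_pos (fun o _ => by positivity) hRne
  refine ⟨c0 / M, by positivity, fun q hq => ?_⟩
  rcases hq.eq_or_lt with heq | hlt
  · rw [← heq, sub_self, mul_zero]
    exact theta_nonneg x q
  have key : ∀ p : I, pc G < p → p < q → c0 * (q - p) ≤ ∑ o ∈ R, theta G o q := by
    intro p hp hpq
    have hm : ∀ m : ℕ, c0 * (q - p) ≤ FF G R m q := by
      intro m
      obtain ⟨o, ho⟩ := hRne
      have ht := theta_pos hG o hp
      have hF : ∀ N, theta G o p ≤ FF G R N p := by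
        intro N
        refine (theta_le_phiB hG N o p).trans ?_
        exact Finset.single_le_sum (f := fun o => phiB G N o p)
          (fun o _ => phiB_nonneg p.2.1 p.2.2 N o) ho
      obtain ⟨N, hN⟩ := exists_nat_ge (max (1 / theta G o p ^ 2) ((m : ℝ) ^ 4 / c0))
      apply T2_perc hG hR' ⟨o, ho⟩ p.2.1 hpq q.2.2 (N := N)
      · have h1 : 1 / theta G o p ^ 2 ≤ N := (le_max_left _ _).trans hN
        rw [div_le_iff₀ (by positivity)] at h1
        have h2 : theta G o p ^ 2 ≤ (FF G R N p) ^ 2 := pow_le_pow_left₀ ht.le (hF N) 2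
        have h3 : (N : ℝ) * theta G o p ^ 2 ≤ N * (FF G R N p) ^ 2 :=
          mul_le_mul_of_nonneg_left h2 (Nat.cast_nonneg N)
        linarith
      · have h1 : (m : ℝ) ^ 4 / c0 ≤ N := (le_max_right _ _).trans hN
        rw [div_le_iff₀ hc0pos] at h1
        linarith
    have hlim : Tendsto (fun m => FF G R m q) atTop (𝓝 (∑ o ∈ R, theta G o q)) := by
      unfold FF
      exact tendsto_finsetSum _ fun o _ => tendsto_theta hG o q
    exact ge_of_tendsto' hlim hm
  have hsum : c0 * (q - pc G) ≤ ∑ o ∈ R, theta G o q := by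
    by_contra hcon
    push Not at hcon
    set t := ((∑ o ∈ R, theta G o q) / c0) with ht
    have h1 : t < q - pc G := by
      rw [ht, div_lt_iff₀ hc0pos]
      linarith
    have ht0 : 0 ≤ t := div_nonneg (Finset.sum_nonneg fun o _ => theta_nonneg o q) hc0pos.le
    -- choose `p` between `p_c` and `q - t`
    have h2 : pc G < (pc G + (q - t)) / 2 := by linarith
    have h3 : (pc G + (q - t)) / 2 < q - t := by linarith
    have hp0 : 0 ≤ (pc G + (q - t)) / 2 := by linarith
    have hp1 : (pc G + (q - t)) / 2 ≤ 1 := by linarith [q.2.2]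
    have h4 := key ⟨(pc G + (q - t)) / 2, hp0, hp1⟩ h2 (by
      rw [← Subtype.coe_lt_coe]
      show (pc G + (q - t)) / 2 < (q : ℝ)
      linarith)
    have h5 : t * c0 = ∑ o ∈ R, theta G o q := by
      rw [ht, div_mul_cancel₀ _ hc0pos.ne']
    have h6 : c0 * (q - (pc G + (q - t)) / 2) ≤ t * c0 := by
      rw [h5]; exact h4
    nlinarith
  have hle : ∑ o ∈ R, theta G o q ≤ M * theta G x q := by
    rw [hM, Finset.sum_mul]
    apply Finset.sum_le_sum
    intro o _
    have h1 := theta_comparison hG x o q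
    have h2 : (pc G) ^ (G.dist o x) ≤ (q : ℝ) ^ (G.dist o x) := pow_le_pow_left₀ hpc.le hq _
    have h3 : 0 < (pc G) ^ (G.dist o x) := pow_pos hpc _
    rw [div_mul_eq_mul_div, le_div_iff₀ h3, one_mul, mul_comm]
    exact (mul_le_mul_of_nonneg_right h2 (theta_nonneg o q)).trans h1
  rw [div_mul_eq_mul_div, div_le_iff₀ hMpos]
  linarith [mul_comm M (theta G x q)]

end Vale.Agent.P151.H648
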