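import Vale.Agent.P151.NA.Ext
import Vale.Agent.P151.H648.Coupling
import Vale.Agent.P151.H648.PcPos
import Vale.Agent.P151.H648.Amen
import Vale.Agent.P151.H648.Lower

/-!
# Assembly: the continuous phase transition
-/

open MeasureTheory ProbabilityTheory SimpleGraph Filter Topology

set_option linter.unusedSectionVars false

namespace Vale.Agent.P151.H648

open Vale.Agent.P151

theorem det_ne_zero {a b : ℝ × ℝ} (h : LinearIndependent ℝ ![a, b]) :
    a.1 * b.2 - a.2 * b.1 ≠ 0 := by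
  intro h0
  rw [LinearIndependent.pair_iff] at h
  have h1 := h b.2 (-a.2) (Prod.ext (by simp; linarith) (by simp; ring))
  have h2 := h b.1 (-a.1) (Prod.ext (by simp; ring) (by simp; linarith))
  have hb : b = 0 := Prod.ext h2.1 h1.1
  have ha : a = 0 := Prod.ext (neg_eq_zero.1 h2.2) (neg_eq_zero.1 h1.2)
  have h3 := h 1 1 (by rw [ha, hb]; simp)
  exact one_ne_zero h3.1

/-- No percolation at `p_c` for the three classes of graphs. -/
theorem no_perc_class (V : Type) (G : SimpleGraph V) [G.LocallyFinite] (hconn : G.Connected)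
    (hpc : pc G < 1) (h : HasPlanarProjection G ∨ HasNilpotentSymmetry G ∨
      (IsQuasiTransitive G ∧ HasStretchedGrowth G)) (p : unitInterval) (hp : (p : ℝ) = pc G) :
    setBernoulli G.edgeSet p (hasInfiniteCluster V) = 0 := by
  classical
  rcases h with ⟨Γ, π, ⟨S, hS⟩, hπ, φ, hφ, ψ, hψ, v, hv⟩ |
    ⟨Γ, H, _, f, ⟨S, hS⟩, hfg, hnil, hf, hst, hker⟩ | ⟨hqt, hgr⟩
  · exact Pl.no_perc_at_pc hconn Γ S hS π hπ
      ⟨φ, hφ, ψ, hψ, v, det_ne_zero hv⟩ p hp hpc
  · exact Pl.no_perc_nilpotent hconn Γ S hS f hf hnil hst hker hpc p hp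
  · by_cases ham : IsAmenable G
    · exact main G hconn hqt ham hpc hgr p hp
    · exact NA.no_perc_of_nonamenable G hconn hqt ham hpc p hp

/-- The graphs of the three classes are quasi-transitive. -/
theorem qt_class {V : Type} {G : SimpleGraph V}
    (h : HasPlanarProjection G ∨ HasNilpotentSymmetry G ∨
      (IsQuasiTransitive G ∧ HasStretchedGrowth G)) :
    ∃ S : Finset V, ∀ x : V, ∃ y ∈ S, ∃ φ : G ≃g G, φ y = x := by
  rcases h with ⟨Γ, π, ⟨S, hS⟩, _⟩ | ⟨Γ, H, _, f, ⟨S, hS⟩, _⟩ | ⟨hqt, _⟩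
  · refine ⟨S, fun x => ?_⟩
    obtain ⟨y, hy, φ, _, hφ⟩ := hS x
    exact ⟨y, hy, φ, hφ⟩
  · refine ⟨S, fun x => ?_⟩
    obtain ⟨y, hy, φ, _, hφ⟩ := hS x
    exact ⟨y, hy, φ, hφ⟩
  · exact hqt

/-- At and below `p_c` there is no infinite cluster and `θ` is continuous. -/
theorem low {V : Type} {G : SimpleGraph V} [G.LocallyFinite] (hG : G.Connected)
    (hpc : ∀ p : unitInterval, (p : ℝ) = pc G →
      setBernoulli G.edgeSet p (hasInfiniteCluster V) = 0) (p : unitInterval)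
    (hp : (p : ℝ) ≤ pc G) : setBernoulli G.edgeSet p (hasInfiniteCluster V) = 0 ∧
      ∀ x, ContinuousAt (theta G x) p := by
  classical
  have h : setBernoulli G.edgeSet p (hasInfiniteCluster V) = 0 := by
    rcases hp.eq_or_lt with h | h
    · exact hpc p h
    · exact null_of_lt_pc h
  exact ⟨h, fun x => continuousAt_of_zero hG x p (theta_eq_zero_of_null x h)⟩

/-- Positivity of `p_c` and the mean-field bound. -/
theorem high {V : Type} {G : SimpleGraph V} [G.LocallyFinite] (hG : G.Connected) [Infinite V]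
    (hqt : ∃ S : Finset V, ∀ x : V, ∃ y ∈ S, ∃ φ : G ≃g G, φ y = x) :
    0 < pc G ∧ ∀ x : V, ∃ c : ℝ, 0 < c ∧ ∀ p : unitInterval, pc G ≤ p →
      c * (p - pc G) ≤ theta G x p := by
  classical
  obtain ⟨S, hS⟩ := hqt
  exact ⟨pc_pos hG hS, fun x => mean_field hG hS x⟩

/-- Continuity and uniqueness on amenable graphs. -/
theorem amen {V : Type} {G : SimpleGraph V} [G.LocallyFinite] (hG : G.Connected)
    (hqt : ∃ S : Finset V, ∀ x : V, ∃ y ∈ S, ∃ φ : G ≃g G, φ y = x) (ham : IsAmenable G)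
    (hpc : ∀ p : unitInterval, (p : ℝ) = pc G →
      setBernoulli G.edgeSet p (hasInfiniteCluster V) = 0) :
    (∀ x, Continuous (theta G x)) ∧ (Infinite V → ∀ p : unitInterval, pc G < p →
      setBernoulli G.edgeSet p (uniqueInfiniteCluster V)ᶜ = 0) := by
  classical
  obtain ⟨S, hS⟩ := hqt
  refine ⟨fun x => continuous_theta hG hS ham hpc x, fun _ p hp => ?_⟩
  exact ae_exactly_one hG hS ham hp

/-- Mean-field behaviour on nonamenable graphs. -/
theorem nonam {V : Type} {G : SimpleGraph V} [G.LocallyFinite] (hG : G.Connected)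
    (hpc1 : pc G < 1) (hqt : IsQuasiTransitive G) (hna : ¬ IsAmenable G) (x : V) (ε : ℝ)
    (hε : 0 < ε) (hε1 : ε < 1) : ∃ c C : ℝ, 0 < c ∧ 0 < C ∧
      (∀ p : unitInterval, (p : ℝ) = pc G → ∀ n : ℕ, 1 ≤ n →
        c * (n : ℝ) ^ (-(1 / 2) - ε) ≤ tail G x n p ∧
        tail G x n p ≤ C * (n : ℝ) ^ (-(1 / 2) + ε)) ∧
      (∀ p : unitInterval, pc G < p → c * ((p : ℝ) - pc G) ≤ theta G x p ∧
        theta G x p ≤ C * ((p : ℝ) - pc G) ^ (1 - ε)) ∧
      (∀ p : unitInterval, (p : ℝ) < pc G →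
        ENNReal.ofReal (c * (pc G - (p : ℝ)) ^ (-1 + ε)) ≤ meanSize G x p ∧
        meanSize G x p ≤ ENNReal.ofReal (C * (pc G - (p : ℝ)) ^ (-1 - ε))) := by
  classical
  have hinf := infinite_of_not_amenable G hG hna
  obtain ⟨hpc0, hmf⟩ := high hG hqt
  obtain ⟨c1, hc1, h1⟩ := hmf x
  obtain ⟨C, hC, hup⟩ := nonamenable_exponents G hG hqt hna hpc0 hpc1 hε hε1
  obtain ⟨hup1, hup2, hup3⟩ := hup x
  obtain ⟨d, _, hd⟩ := Vale.Agent.P165.LF.exists_degree_bound (G := G) hqt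
  have htail : ∀ ε : ℝ, 0 < ε → ∃ c' : ℝ, 0 < c' ∧ ∀ n : ℕ, 1 ≤ n →
      c' * (n : ℝ) ^ (-(1 / 2) - ε) ≤ phiB G n x (pc G) := fun ε hε =>
    tail_lower hG hd hpc0 hpc1 hc1 h1 hε
  obtain ⟨c2, hc2, h2⟩ := htail ε hε
  obtain ⟨c3, hc3, h3⟩ := mean_lower hG hd hpc0 hpc1 htail hε hε1
  have hm : 0 < min c1 (min c2 c3) := lt_min hc1 (lt_min hc2 hc3)
  refine ⟨min c1 (min c2 c3), C, hm, hC, fun p hp n hn => ⟨?_, ?_⟩, fun p hp => ⟨?_, ?_⟩,
    fun p hp => ⟨?_, ?_⟩⟩
  · have h4 := h2 n hn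
    have h5 : tail G x n p = phiB G n x p := measureReal_bigC G hG p n x
    rw [h5, hp]
    refine le_trans (mul_le_mul_of_nonneg_right ?_ (Real.rpow_nonneg (Nat.cast_nonneg _) _)) h4
    exact (min_le_right _ _).trans (min_le_left _ _)
  · exact hup1 p hp.le n hn
  · exact le_trans (mul_le_mul_of_nonneg_right (min_le_left _ _) (by linarith)) (h1 p hp.le)
  · exact hup2 p hp
  · have h4 := h3 p hp
    rw [show (-1 + ε) = -(1 - ε) by ring]
    refine le_trans (ENNReal.ofReal_le_ofReal (mul_le_mul_of_nonneg_right ?_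
      (Real.rpow_nonneg (by linarith) _))) h4
    exact (min_le_right _ _).trans (min_le_right _ _)
  · rw [show (-1 - ε) = -(1 + ε) by ring]
    exact hup3 p hp

end Vale.Agent.P151.H648
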