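import Vale.Agent.P151.Bdl.B1
import Vale.Agent.P151.H648.Defs

/-!
# The percolation probability: monotonicity, upper semicontinuity, positivity
-/

open MeasureTheory ProbabilityTheory SimpleGraph Filter Topology unitInterval

set_option linter.unusedSectionVars false

namespace Vale.Agent.P151.H648

open Vale.Agent.P151

variable {V : Type} [DecidableEq V] {G : SimpleGraph V} [G.LocallyFinite]

theorem theta_def (x : V) (p : I) :
    theta G x p = (setBernoulli G.edgeSet p).real (InfC x) := rfl

theorem theta_nonneg (x : V) (p : I) : 0 ≤ theta G x p := measureReal_nonneg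

theorem tendsto_theta (hG : G.Connected) (x : V) (p : I) :
    Tendsto (fun n => phiB G n x p) atTop (𝓝 (theta G x p)) := tendsto_phiB G hG p x

theorem theta_le_phiB (hG : G.Connected) (n : ℕ) (x : V) (p : I) :
    theta G x p ≤ phiB G n x p := by
  rw [theta_def, ← measureReal_bigC G hG]
  apply measureReal_mono
  · rw [← iInter_bigC]
    exact Set.iInter_subset _ n
  · exact measure_ne_top _ _

theorem theta_mono (hG : G.Connected) (x : V) : Monotone (theta G x) := by
  intro p q hpq
  refine le_of_tendsto_of_tendsto' (tendsto_theta hG x p) (tendsto_theta hG x q) fun n => ?_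
  exact phiB_mono p.2.1 hpq q.2.2 n x

theorem continuous_phiB (n : ℕ) (x : V) : Continuous (fun p : ℝ => phiB G n x p) := by
  rw [continuous_iff_continuousAt]
  intro p
  exact (hasDerivAt_Ex p _ _).continuousAt

/-- `θ_x` is upper semicontinuous. -/
theorem theta_usc (hG : G.Connected) (x : V) (p : I) {ε : ℝ} (hε : 0 < ε) :
    ∀ᶠ q in 𝓝 p, theta G x q < theta G x p + ε := by
  have h1 := (tendsto_theta hG x p).eventually (gt_mem_nhds (show theta G x p < theta G x p + ε by
    linarith))
  obtain ⟨n, hn⟩ := h1.exists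
  have h2 : Continuous (fun q : I => phiB G n x q) :=
    (continuous_phiB n x).comp continuous_subtype_val
  have h3 := h2.continuousAt.eventually (gt_mem_nhds hn)
  filter_upwards [h3] with q hq
  exact (theta_le_phiB hG n x q).trans_lt hq

theorem continuousAt_of_zero (hG : G.Connected) (x : V) (p : I) (h : theta G x p = 0) :
    ContinuousAt (theta G x) p := by
  rw [ContinuousAt, h, tendsto_order]
  constructor
  · intro a ha
    exact Eventually.of_forall fun q => ha.trans_le (theta_nonneg x q)
  · intro a ha
    have := theta_usc hG x p ha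
    rw [h, zero_add] at this
    exact this

theorem theta_eq_zero_of_null (x : V) {p : I}
    (h : setBernoulli G.edgeSet p (hasInfiniteCluster V) = 0) : theta G x p = 0 := by
  rw [theta_def, measureReal_def, measure_mono_null (infC_subset x) h]
  rfl

theorem null_of_lt_pc {p : I} (hp : (p : ℝ) < pc G) :
    setBernoulli G.edgeSet p (hasInfiniteCluster V) = 0 := by
  by_contra hne
  have hpos := pos_iff_ne_zero.2 hne
  have : pc G ≤ p := csInf_le ⟨0, fun q hq => hq.1.1⟩ ⟨p.2, hpos⟩
  linarith

theorem exists_theta_pos (hG : G.Connected) {p : I}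
    (h : 0 < setBernoulli G.edgeSet p (hasInfiniteCluster V)) : ∃ y, 0 < theta G y p := by
  have : Countable V := countable_of_connected G hG
  by_contra hcon
  push Not at hcon
  apply h.ne'
  rw [hasInfiniteCluster_eq, measure_iUnion_null_iff]
  intro y
  have h1 : theta G y p = 0 := le_antisymm (hcon y) (theta_nonneg y p)
  exact (measureReal_eq_zero_iff (measure_ne_top _ _)).1 h1

/-- Comparison of two vertices. -/
theorem theta_comparison (hG : G.Connected) (x y : V) (p : I) :
    (p : ℝ) ^ (G.dist y x) * theta G y p ≤ theta G x p := by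
  refine le_of_tendsto_of_tendsto' ((tendsto_theta hG y p).const_mul _) (tendsto_theta hG x p)
    fun n => ?_
  have h := phi_comparison (G := G) p.2.1 p.2.2 hG n x y (le_refl (G.dist y x))
  rw [phi_eq_phiB hG p.2.1 p.2.2, phi_eq_phiB hG p.2.1 p.2.2] at h
  exact h

theorem perc_one (hG : G.Connected) [Infinite V] :
    0 < setBernoulli G.edgeSet (1 : I) (hasInfiniteCluster V) := by
  rw [setBernoulli_one, Measure.dirac_apply_of_mem]
  · exact zero_lt_one
  · obtain ⟨o⟩ := hG.nonempty
    refine ⟨o, ?_⟩
    have : cluster G.edgeSet o = Set.univ := by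
      ext y
      simp only [cluster, fromEdgeSet_edgeSet, Set.mem_ofPred_eq, Set.mem_univ, iff_true]
      exact hG.preconnected o y
    rw [this]
    exact Set.infinite_univ

theorem theta_pos (hG : G.Connected) [Infinite V] (x : V) {p : I} (hp : pc G < p) :
    0 < theta G x p := by
  have hne : {p : ℝ | ∃ h : p ∈ Set.Icc (0 : ℝ) 1,
      0 < setBernoulli G.edgeSet (⟨p, h⟩ : I) (hasInfiniteCluster V)}.Nonempty :=
    ⟨1, ⟨zero_le_one, le_rfl⟩, perc_one hG⟩
  obtain ⟨q, ⟨hq, hpos⟩, hqp⟩ := exists_lt_of_csInf_lt hne hp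
  obtain ⟨y, hy⟩ := exists_theta_pos hG hpos
  have hqp' : (⟨q, hq⟩ : I) ≤ p := hqp.le
  have hy2 := hy.trans_le (theta_mono hG y hqp')
  have hp0 : 0 < (p : ℝ) := hq.1.trans_lt hqp
  have h3 := theta_comparison hG x y p
  have h4 : 0 < (p : ℝ) ^ (G.dist y x) * theta G y p := mul_pos (pow_pos hp0 _) hy2
  linarith

end Vale.Agent.P151.H648
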