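import Vale.Agent.P151.H648.Tail
import Vale.Agent.P151.H648.Theta

/-!
# Near-critical behaviour on nonamenable graphs
-/

open Finset MeasureTheory ProbabilityTheory
open scoped ENNReal

set_option linter.unusedSectionVars false

namespace Vale.Agent.P151.H648

open Vale.Agent.P151
open Vale.Agent.P165 (vertexCheeger)
open Vale.Agent.P165.BS (FS chi_step)
open Vale.Agent.P165.LF (Sub chi vol sub_of_lt_pc one_le_chi chi_mono csz_le_chi)

/-- Real analysis: a function with `X(q') ≥ X(q) + c (q' - q) X(q)^{1 + θ}` on `[a, b)`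
satisfies `(b - q) X(q)^θ ≤ C` (doubling steps). -/
theorem blowup_gen {c θ : ℝ} (hc : 0 < c) (hθ : 0 < θ) : ∃ C, 0 < C ∧ ∀ (a b : ℝ) (X : ℝ → ℝ),
    (∀ q, a ≤ q → q < b → 1 ≤ X q) →
    (∀ q q', a ≤ q → q ≤ q' → q' < b → X q ≤ X q') →
    (∀ q q', a ≤ q → q ≤ q' → q' < b → X q + c * (q' - q) * X q ^ (1 + θ) ≤ X q') →
    ∀ q, a ≤ q → q < b → (b - q) * X q ^ θ ≤ C := by
  set r : ℝ := (2 : ℝ) ^ θ with hr
  have hr1 : 1 < r := Real.one_lt_rpow (by norm_num) hθ
  have hr0 : 0 < r - 1 := by linarith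
  have hrp : 0 < r := by linarith
  set s : ℝ := r / (c * (r - 1)) with hs
  have hs0 : 0 < s := by positivity
  have hcs : c⁻¹ + s / r = s := by
    rw [hs]
    field_simp
    ring
  have hcs' : c⁻¹ ≤ s := by
    have h1 : 0 < s / r := by positivity
    linarith
  refine ⟨s, hs0, ?_⟩
  intro a b X hX1 hXm hstep q hq hqb
  by_contra hcon
  rw [not_le] at hcon
  have hXq := hX1 q hq hqb
  have hpos : 0 < X q ^ θ := Real.rpow_pos_of_pos (by linarith) _
  set Q := q + s * (X q ^ θ)⁻¹ with hQ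
  have hQb : Q < b := by
    have h1 : s * (X q ^ θ)⁻¹ < b - q := by
      rw [← div_eq_mul_inv, div_lt_iff₀ hpos]
      exact hcon
    rw [hQ]
    linarith
  have key : ∀ k : ℕ, ∃ x, q ≤ x ∧ x + s * (X x ^ θ)⁻¹ ≤ Q ∧ (2 : ℝ) ^ k ≤ X x := by
    intro k
    induction k with
    | zero => exact ⟨q, le_rfl, le_rfl, by simpa using hXq⟩
    | succ k ih =>
      obtain ⟨x, hx1, hx2, hx3⟩ := ih
      have hX1x : 0 < X x := lt_of_lt_of_le (by positivity) hx3
      have hXp : 0 < X x ^ θ := Real.rpow_pos_of_pos hX1x _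
      have hp : 0 < (X x ^ θ)⁻¹ := inv_pos.mpr hXp
      set Y := (X x ^ θ)⁻¹ with hY
      have hcY : 0 < c⁻¹ * Y := by positivity
      have hcsY : c⁻¹ * Y ≤ s * Y := mul_le_mul_of_nonneg_right hcs' hp.le
      have hx'b : x + c⁻¹ * Y < b := by linarith
      have h1 := hstep x (x + c⁻¹ * Y) (by linarith) (by linarith) hx'b
      have h2 : c * (x + c⁻¹ * Y - x) * X x ^ (1 + θ) = X x := by
        have h3 : X x ^ (1 + θ) = X x ^ θ * X x := by
          rw [add_comm, Real.rpow_add hX1x, Real.rpow_one]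
        rw [h3, add_sub_cancel_left, mul_inv_cancel_left₀ hc.ne', hY, inv_mul_cancel_left₀ hXp.ne']
      rw [h2] at h1
      refine ⟨x + c⁻¹ * Y, by linarith, ?_, ?_⟩
      · have h4 : r * X x ^ θ ≤ X (x + c⁻¹ * Y) ^ θ := by
          rw [hr, ← Real.mul_rpow (by norm_num) hX1x.le]
          exact Real.rpow_le_rpow (by positivity) (by linarith) hθ.le
        have h5 : (X (x + c⁻¹ * Y) ^ θ)⁻¹ ≤ r⁻¹ * Y := by
          have h51 := inv_anti₀ (by positivity) h4
          rwa [mul_inv] at h51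
        have h6 : s * (X (x + c⁻¹ * Y) ^ θ)⁻¹ ≤ s * (r⁻¹ * Y) :=
          mul_le_mul_of_nonneg_left h5 hs0.le
        have h7 : c⁻¹ * Y + s * (r⁻¹ * Y) = s * Y := by
          calc c⁻¹ * Y + s * (r⁻¹ * Y) = (c⁻¹ + s / r) * Y := by ring
            _ = s * Y := by rw [hcs]
        linarith
      · rw [pow_succ]
        linarith
  obtain ⟨k, hk⟩ := pow_unbounded_of_one_lt (X Q) (one_lt_two (α := ℝ))
  obtain ⟨x, hx1, hx2, hx3⟩ := key k
  have hX1x : 0 < X x := lt_of_lt_of_le (by positivity) hx3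
  have h1 : 0 ≤ s * (X x ^ θ)⁻¹ := by positivity
  have h2 := hXm x Q (by linarith) (by linarith) hQb
  linarith

variable {V : Type} [DecidableEq V] {G : SimpleGraph V}

/-- `χ(q) ≤ C (b - q)^{-γ}` from the lower bound for `F_S`. -/
theorem chi_bound_of_FS [G.LocallyFinite] [Infinite V] (hG : G.Connected)
    (hqt : Vale.Agent.P165.IsQuasiTransitive G) (hpc0 : 0 < Vale.Agent.P165.pc G)
    (hpc1 : Vale.Agent.P165.pc G < 1) {γ : ℝ} (hγ : 1 < γ)
    (h : ∃ p2 c : ℝ, 0 < p2 ∧ p2 < Vale.Agent.P165.pc G ∧ 0 < c ∧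
      ∀ q, p2 ≤ q → q < Vale.Agent.P165.pc G → ∀ S : Finset V, S.Nonempty →
        c * chi G q ^ (1 / γ) * S.card ≤ FS G q S) :
    ∃ C : ℝ, 0 < C ∧ ∀ q, 0 ≤ q → q < Vale.Agent.P165.pc G →
      chi G q ≤ C * (Vale.Agent.P165.pc G - q) ^ (-γ) := by
  have hne : Nonempty V := hG.nonempty
  set b := Vale.Agent.P165.pc G with hb
  have hγ0 : 0 < γ := by linarith
  have hθ : 0 < 1 / γ := by positivity
  have hsub : ∀ q, 0 ≤ q → q < b → Sub G q := fun q h0 hq =>
    sub_of_lt_pc hG hqt h0 hq (hq.le.trans hpc1.le)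
  have hX1 : ∀ q, 0 ≤ q → q < b → 1 ≤ chi G q := fun q h0 hq =>
    one_le_chi h0 (hq.le.trans hpc1.le) (hsub q h0 hq)
  have hXm : ∀ q q', 0 ≤ q → q ≤ q' → q' < b → chi G q ≤ chi G q' := fun q q' h0 hqq hq' =>
    chi_mono h0 hqq (hq'.le.trans hpc1.le) (hsub q' (h0.trans hqq) hq')
  -- it suffices to have the bound near `b`
  suffices hnear : ∃ a C : ℝ, 0 < a ∧ a < b ∧ 0 < C ∧ ∀ q, a ≤ q → q < b →
      chi G q ≤ C * (b - q) ^ (-γ) by
    obtain ⟨a, C, ha0, hab, hC, hq⟩ := hnear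
    have hba : 0 < b - a := by linarith
    have hba1 : b - a ≤ 1 := by linarith
    have hM1 : 1 ≤ (b - a) ^ (-γ) :=
      Real.one_le_rpow_of_pos_of_le_one_of_nonpos hba hba1 (by linarith)
    refine ⟨C * (b - a) ^ (-γ), by positivity, fun q h0 hqb => ?_⟩
    have hbq : 0 < b - q := by linarith
    have hbq1 : b - q ≤ 1 := by linarith
    have hN1 : 1 ≤ (b - q) ^ (-γ) :=
      Real.one_le_rpow_of_pos_of_le_one_of_nonpos hbq hbq1 (by linarith)
    rcases le_or_gt a q with haq | haq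
    · refine (hq q haq hqb).trans ?_
      rw [mul_assoc, mul_comm ((b - a) ^ (-γ)), ← mul_assoc]
      exact le_mul_of_one_le_right (by positivity) hM1
    · refine ((hXm q a h0 haq.le hab).trans (hq a le_rfl hab)).trans ?_
      exact le_mul_of_one_le_right (by positivity) hN1
  by_cases hinf : ∀ K : ℝ, ∃ q0 : ℝ, 0 < q0 ∧ q0 < b ∧ ∀ q, q0 ≤ q → q < b → K ≤ chi G q
  · obtain ⟨p2, c, hp20, hp2c, hc, hF⟩ := h
    obtain ⟨a0, ha00, ha0c, hKa0⟩ := hinf ((2 / c) ^ γ)
    set a := max p2 a0 with ha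
    have hac : a < b := max_lt hp2c ha0c
    have hp2a : p2 ≤ a := le_max_left _ _
    have ha0 : 0 < a := hp20.trans_le hp2a
    have hgr : ∀ q q', p2 ≤ q → q ≤ q' → q' < b →
        chi G q + (q' - q) / (1 - q) * ((c * chi G q ^ (1 / γ) - 1) * chi G q) ≤
          chi G q' := by
      intro q q' hq hqq hq'
      have hq0 : 0 < q := hp20.trans_le hq
      exact chi_step hq0.le hqq (hq'.trans hpc1) (hsub q' (hq0.le.trans hqq) hq')
        (hF q hq (hqq.trans_lt hq'))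
    have hcC : 0 < c / 2 := by positivity
    obtain ⟨C₀, hC₀, hC⟩ := blowup_gen hcC hθ
    have hbl := hC a b (chi G)
      (fun q hq hqc => hX1 q (ha0.le.trans hq) hqc)
      (fun q q' hq hqq hq' => hXm q q' (ha0.le.trans hq) hqq hq')
      (fun q q' hq hqq hq' => by
        have hq0 : 0 < q := ha0.trans_le hq
        have hqc : q < b := hqq.trans_lt hq'
        have hq1 : q < 1 := hqc.trans hpc1
        set X := chi G q with hX
        have hX0 : 0 < X := by linarith [hX1 q hq0.le hqc]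
        have hXK : (2 / c) ^ γ ≤ X := hKa0 q ((le_max_right _ _).trans hq) hqc
        have h2c : (0 : ℝ) ≤ 2 / c := by positivity
        have h34 : 2 / c ≤ X ^ (1 / γ) := by
          have h5 := Real.rpow_le_rpow (Real.rpow_nonneg h2c _) hXK hθ.le
          rwa [← Real.rpow_mul h2c, mul_one_div_cancel hγ0.ne', Real.rpow_one] at h5
        have h35 : 1 ≤ c / 2 * X ^ (1 / γ) := by
          rw [div_le_iff₀ hc] at h34
          linarith
        have e2 : X ^ (1 + 1 / γ) = X ^ (1 / γ) * X := by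
          rw [add_comm, Real.rpow_add hX0, Real.rpow_one]
        refine le_trans ?_ (hgr q q' (hp2a.trans hq) hqq hq')
        have hs0 : 0 ≤ (q' - q) / (1 - q) := div_nonneg (by linarith) (by linarith)
        have h6 : c / 2 * X ^ (1 + 1 / γ) ≤ (c * X ^ (1 / γ) - 1) * X := by
          rw [e2]
          nlinarith
        have h7 := mul_le_mul_of_nonneg_left h6 hs0
        have h2 : q' - q ≤ (q' - q) / (1 - q) := by
          rw [le_div_iff₀ (by linarith)]
          nlinarith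
        have h3 : 0 ≤ c / 2 * X ^ (1 + 1 / γ) := by positivity
        have h4 := mul_le_mul_of_nonneg_right h2 h3
        linarith)
    refine ⟨a, C₀ ^ γ, ha0, hac, by positivity, fun q hq hqb => ?_⟩
    have h1 := hbl q hq hqb
    have hbq : 0 < b - q := by linarith
    have hXp : 0 < chi G q := by linarith [hX1 q (ha0.le.trans hq) hqb]
    have h2 : chi G q ^ (1 / γ) ≤ C₀ / (b - q) := by
      rw [le_div_iff₀ hbq, mul_comm]
      exact h1
    have h3 := Real.rpow_le_rpow (Real.rpow_nonneg hXp.le _) h2 hγ0.le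
    rw [← Real.rpow_mul hXp.le, one_div_mul_cancel hγ0.ne', Real.rpow_one,
      Real.div_rpow hC₀.le hbq.le] at h3
    rw [Real.rpow_neg hbq.le, ← div_eq_mul_inv]
    exact h3
  · push Not at hinf
    obtain ⟨K, hK⟩ := hinf
    have hbd : ∀ q, 0 < q → q < b → chi G q ≤ max K 1 := by
      intro q hq0 hqb
      obtain ⟨q', hq1, hq2, hq3⟩ := hK q hq0 hqb
      exact (hXm q q' hq0.le hq1 hq2).trans (hq3.le.trans (le_max_left _ _))
    refine ⟨b / 2, max K 1, by linarith, by linarith, by positivity, fun q hq hqb => ?_⟩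
    have hbq : 0 < b - q := by linarith
    have hbq1 : b - q ≤ 1 := by linarith
    have hN1 : 1 ≤ (b - q) ^ (-γ) :=
      Real.one_le_rpow_of_pos_of_le_one_of_nonpos hbq hbq1 (by linarith)
    refine (hbd q (by linarith) hqb).trans ?_
    exact le_mul_of_one_le_right (by positivity) hN1

/-- `χ(q) ≤ C (p_c - q)^{-γ}` for every `γ > 1`, on nonamenable graphs. -/
theorem chi_bound [G.LocallyFinite] [Infinite V] (hG : G.Connected)
    (hqt : Vale.Agent.P165.IsQuasiTransitive G) (hna : 0 < vertexCheeger G)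
    (hpc0 : 0 < Vale.Agent.P165.pc G)
    (hpc1 : Vale.Agent.P165.pc G < 1) {γ : ℝ} (hγ : 1 < γ) :
    ∃ C : ℝ, 0 < C ∧ ∀ q, 0 ≤ q → q < Vale.Agent.P165.pc G →
      chi G q ≤ C * (Vale.Agent.P165.pc G - q) ^ (-γ) := by
  refine chi_bound_of_FS hG hqt hpc0 hpc1 hγ ?_
  have hγ0 : 0 < γ := by linarith
  have hne : Nonempty V := hG.nonempty
  have hI := Vale.Agent.P165.BS2.iface2 hG hqt hna hpc0 hpc1.le
  have hκ : 0 < 1 - 1 / γ := by
    have : 1 / γ < 1 := by rw [div_lt_one hγ0]; exact hγ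
    linarith
  obtain ⟨p2, K, hp2, hp2b, hK1, hK⟩ := Vale.Agent.P165.BS2.core2 hI hκ
  have hK0 : 0 < K := by linarith
  refine ⟨p2, K⁻¹, hp2, hp2b, inv_pos.2 hK0, fun q h1 h2 S _ => ?_⟩
  have hq0 : 0 < q := hp2.trans_le h1
  have hq1 : q < 1 := h2.trans_le hpc1.le
  have hs : Sub G q := sub_of_lt_pc hG hqt hq0.le h2 hq1.le
  have hX1 : 1 ≤ chi G q := one_le_chi hq0.le hq1.le hs
  have hX0 : 0 < chi G q := one_pos.trans_le hX1
  have hr0 : 0 ≤ chi G q ^ (1 / γ) := Real.rpow_nonneg hX0.le _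
  by_cases hKX : K ≤ chi G q
  · have h3 := hK q h1 h2 hKX S
    rw [sub_sub_cancel] at h3
    refine le_trans ?_ h3
    have h5 : K⁻¹ ≤ 1 := inv_le_one_of_one_le₀ hK1
    have h6 : (0 : ℝ) ≤ S.card := Nat.cast_nonneg _
    nlinarith [mul_nonneg hr0 h6, mul_le_mul_of_nonneg_right h5 (mul_nonneg hr0 h6)]
  · push Not at hKX
    refine le_trans ?_ (Vale.Agent.P165.BS.card_le_Fs hq0.le hq1.le hs S)
    have h6 : (0 : ℝ) ≤ S.card := Nat.cast_nonneg _
    have h7 : chi G q ^ (1 / γ) ≤ K := by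
      refine le_trans ?_ hKX.le
      calc chi G q ^ (1 / γ) ≤ chi G q ^ (1 : ℝ) :=
            Real.rpow_le_rpow_of_exponent_le hX1 (by linarith)
        _ = chi G q := Real.rpow_one _
    have h8 : K⁻¹ * chi G q ^ (1 / γ) ≤ 1 := by
      rw [inv_mul_le_iff₀ hK0, mul_one]; exact h7
    calc K⁻¹ * chi G q ^ (1 / γ) * S.card ≤ 1 * S.card :=
          mul_le_mul_of_nonneg_right h8 h6
      _ = S.card := one_mul _

/-- The tail slightly above `b`, from the bound for `χ` below `b`. -/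
theorem tail_near [G.LocallyFinite] [Infinite V] (hG : G.Connected)
    (hqt : Vale.Agent.P165.IsQuasiTransitive G) {b C γ k : ℝ} (hb0 : 0 < b) (hb1 : b < 1)
    (hb : b ≤ Vale.Agent.P165.pc G) (hC : 0 < C)
    (hk : 1 < k) (hchi : ∀ q, 0 ≤ q → q < b → chi G q ≤ C * (b - q) ^ (-γ)) :
    ∃ C' : ℝ, 0 < C' ∧ ∀ δ : ℝ, 0 < δ → δ ≤ b / 2 → δ ≤ (1 - b) / 2 → ∀ n : ℕ, 1 ≤ n →
      n * δ ^ 2 ≤ 2 → ∀ x, phiB G n x (b + δ) ≤ C' * (δ ^ (-γ) / n) ^ (1 - 1 / k) := by
  obtain ⟨d, hd1, hd⟩ := Vale.Agent.P165.LF.exists_degree_bound (G := G) hqt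
  have hk0 : 0 < k := by linarith
  have hθ : 0 < 1 - 1 / k := by
    have : 1 / k < 1 := by rw [div_lt_one hk0]; exact hk
    linarith
  have h1b : 0 < 1 - b := by linarith
  set D : ℝ := d / (b / 2 * ((1 - b) / 2)) ^ 2 with hD
  have hD0 : 0 ≤ D := by positivity
  refine ⟨C ^ (1 - 1 / k) * Real.exp (8 * D * k), by positivity, ?_⟩
  intro δ hδ hδ1 hδ2 n hn hnδ x
  have hn0 : (0 : ℝ) < n := by exact_mod_cast hn
  have hq0 : 0 ≤ b - δ := by linarith
  have hs : Sub G (b - δ) := sub_of_lt_pc hG hqt hq0 (by linarith) (by linarith)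
  have h1 := tail_compare (a := b / 2) (k := k) (q := b - δ) (b := b + δ) (by positivity) hk
    (by linarith) (by linarith) (by linarith) (Λ := edgesIn G (ballF G x n)) hn
    (fun v => (NA.card_filter_edgesIn_le' _ v).trans (hd v)) x
  have h2 := NA.phiB_le_chi_div hq0 (by linarith) hs hn x
  have h3 := hchi (b - δ) hq0 (by linarith)
  rw [sub_sub_cancel] at h3
  have h4 : phiB G n x (b - δ) ≤ C * (δ ^ (-γ) / n) := by
    refine h2.trans ?_
    rw [← mul_div_assoc]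
    exact div_le_div_of_nonneg_right h3 hn0.le
  have h5 : 0 ≤ phiB G n x (b - δ) := phiB_nonneg hq0 (by linarith) n x
  have hδp : 0 < δ ^ (-γ) := Real.rpow_pos_of_pos hδ _
  have h6 := Real.rpow_le_rpow h5 h4 hθ.le
  rw [Real.mul_rpow hC.le (by positivity)] at h6
  have h7 : (d : ℝ) / (b / 2 * (1 - (b + δ))) ^ 2 * n * k * (b + δ - (b - δ)) ^ 2 ≤
      8 * D * k := by
    have h8 : (d : ℝ) / (b / 2 * (1 - (b + δ))) ^ 2 ≤ D := by
      rw [hD]
      refine div_le_div_of_nonneg_left (by positivity) (by positivity) ?_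
      refine pow_le_pow_left₀ (by positivity) ?_ 2
      exact mul_le_mul_of_nonneg_left (by linarith) (by positivity)
    have h9 : (b + δ - (b - δ)) ^ 2 = 4 * δ ^ 2 := by ring
    rw [h9]
    calc (d : ℝ) / (b / 2 * (1 - (b + δ))) ^ 2 * n * k * (4 * δ ^ 2)
        = (d : ℝ) / (b / 2 * (1 - (b + δ))) ^ 2 * (4 * k * (n * δ ^ 2)) := by ring
      _ ≤ D * (4 * k * 2) := mul_le_mul h8 (mul_le_mul_of_nonneg_left hnδ (by positivity))
          (by positivity) hD0
      _ = 8 * D * k := by ring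
  have h10 := Real.exp_le_exp.2 h7
  calc phiB G n x (b + δ) ≤ _ := h1
    _ ≤ (C ^ (1 - 1 / k) * (δ ^ (-γ) / n) ^ (1 - 1 / k)) * Real.exp (8 * D * k) :=
        mul_le_mul h6 h10 (Real.exp_pos _).le (by positivity)
    _ = _ := by ring

end Vale.Agent.P151.H648
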