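import Vale.Agent.P151.NA.Ext

/-!
# Comparison of the tails at two parameters

`P_b(|K_x| ≥ n) ≤ P_q(|K_x| ≥ n)^{1 - 1/k} exp(D n k (b - q)²)`: the event is decided by an
exploration which reveals at most `d n` edges.
-/

open Finset MeasureTheory ProbabilityTheory

set_option linter.unusedSectionVars false

namespace Vale.Agent.P151.H648

open Vale.Agent.P151

/-- Hölder's inequality for two terms. -/
lemma holder2 {k : ℝ} (hk : 1 < k) {f1 f0 g1 g0 : ℝ} (hf1 : 0 ≤ f1) (hf0 : 0 ≤ f0)
    (hg1 : 0 ≤ g1) (hg0 : 0 ≤ g0) :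
    f1 * g1 ^ (1 - 1 / k) + f0 * g0 ^ (1 - 1 / k) ≤
      (f1 ^ k + f0 ^ k) ^ (1 / k) * (g1 + g0) ^ (1 - 1 / k) := by
  have hk0 : 0 < k := by linarith
  have hθ : 0 < 1 - 1 / k := by
    have : 1 / k < 1 := by rw [div_lt_one hk0]; exact hk
    linarith
  have hconj : k.HolderConjugate (1 / (1 - 1 / k)) := by
    rw [Real.holderConjugate_iff]
    refine ⟨hk, ?_⟩
    rw [one_div, inv_inv, one_div]
    ring
  have h := Real.inner_le_Lp_mul_Lq_of_nonneg (Finset.univ : Finset Bool)
    (f := fun i => if i then f1 else f0)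
    (g := fun i => (if i then g1 else g0) ^ (1 - 1 / k)) hconj
    (by intro i _; cases i <;> simpa) (by
      intro i _
      cases i
      · simpa using Real.rpow_nonneg hg0 _
      · simpa using Real.rpow_nonneg hg1 _)
  have e : ∀ g : ℝ, 0 ≤ g → (g ^ (1 - 1 / k)) ^ (1 / (1 - 1 / k)) = g := by
    intro g hg
    rw [← Real.rpow_mul hg, mul_one_div_cancel hθ.ne', Real.rpow_one]
  simp only [Fintype.univ_bool, Finset.mem_singleton, Bool.true_eq_false, not_false_eq_true,
    Finset.sum_insert, Finset.sum_singleton, if_true, Bool.false_eq_true, if_false] at h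
  rw [e g1 hg1, e g0 hg0, one_div_one_div] at h
  exact h

/-- One step of the exploration. -/
lemma step_le {k q b R a1 a0 : ℝ} (hk : 1 < k) (hq0 : 0 < q) (hq1 : q < 1) (hb0 : 0 ≤ b)
    (hb1 : b ≤ 1) (ha1 : 0 ≤ a1) (ha0 : 0 ≤ a0) (hR0 : 0 ≤ R)
    (hR : (b / q ^ (1 - 1 / k)) ^ k + ((1 - b) / (1 - q) ^ (1 - 1 / k)) ^ k ≤ R ^ k) :
    b * a1 ^ (1 - 1 / k) + (1 - b) * a0 ^ (1 - 1 / k) ≤
      R * (q * a1 + (1 - q) * a0) ^ (1 - 1 / k) := by
  have hk0 : 0 < k := by linarith
  have h1q : 0 < 1 - q := by linarith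
  have h1b : 0 ≤ 1 - b := by linarith
  have hqp : 0 < q ^ (1 - 1 / k) := Real.rpow_pos_of_pos hq0 _
  have hqp' : 0 < (1 - q) ^ (1 - 1 / k) := Real.rpow_pos_of_pos h1q _
  have h := holder2 hk (f1 := b / q ^ (1 - 1 / k)) (f0 := (1 - b) / (1 - q) ^ (1 - 1 / k))
    (g1 := q * a1) (g0 := (1 - q) * a0) (by positivity) (by positivity) (by positivity)
    (by positivity)
  rw [Real.mul_rpow hq0.le ha1, Real.mul_rpow h1q.le ha0] at h
  have e1 : b / q ^ (1 - 1 / k) * (q ^ (1 - 1 / k) * a1 ^ (1 - 1 / k)) =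
      b * a1 ^ (1 - 1 / k) := by
    field_simp
  have e0 : (1 - b) / (1 - q) ^ (1 - 1 / k) * ((1 - q) ^ (1 - 1 / k) * a0 ^ (1 - 1 / k)) =
      (1 - b) * a0 ^ (1 - 1 / k) := by
    field_simp
  rw [e1, e0] at h
  refine h.trans (mul_le_mul_of_nonneg_right ?_ (Real.rpow_nonneg (by positivity) _))
  calc _ ≤ (R ^ k) ^ (1 / k) := Real.rpow_le_rpow (by positivity) hR (by positivity)
    _ = R := by rw [← Real.rpow_mul hR0, mul_one_div_cancel hk0.ne', Real.rpow_one]

lemma exp_le_add_exp_sq (t : ℝ) : Real.exp t ≤ t + Real.exp (t ^ 2) := by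
  rcases le_or_gt |t| 1 with h | h
  · have h1 := Real.abs_exp_sub_one_sub_id_le h
    have h2 := (abs_le.1 h1).2
    have h3 := Real.add_one_le_exp (t ^ 2)
    linarith
  · rcases lt_or_ge t 0 with h0 | h0
    · rw [abs_of_neg h0] at h
      have h3 := Real.add_one_le_exp (t ^ 2)
      have h4 : Real.exp t ≤ 1 := Real.exp_le_one_iff.2 h0.le
      nlinarith
    · rw [abs_of_nonneg h0] at h
      have h4 : Real.exp t ≤ Real.exp (t ^ 2) := Real.exp_le_exp.2 (by nlinarith)
      linarith

/-- The moment of the likelihood ratio of one edge. -/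
lemma ratio_le {k q b T : ℝ} (hk : 1 < k) (hq0 : 0 < q) (hqb : q ≤ b) (hb1 : b < 1)
    (hT1 : k * (b - q) / q ≤ T) (hT2 : k * (b - q) / (1 - q) ≤ T) :
    (b / q ^ (1 - 1 / k)) ^ k + ((1 - b) / (1 - q) ^ (1 - 1 / k)) ^ k ≤
      (Real.exp (T ^ 2 / k)) ^ k := by
  have hk0 : 0 < k := by linarith
  have hq1 : q < 1 := hqb.trans_lt hb1
  have h1q : 0 < 1 - q := by linarith
  have h1b : 0 < 1 - b := by linarith
  have hb0 : 0 < b := hq0.trans_le hqb
  have key : ∀ w v : ℝ, 0 < w → 0 < v → (v / w ^ (1 - 1 / k)) ^ k ≤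
      w * Real.exp (k * ((v - w) / w)) := by
    intro w v hw hv
    have e1 : (v / w ^ (1 - 1 / k)) ^ k = w * (v / w) ^ k := by
      rw [Real.div_rpow hv.le (Real.rpow_nonneg hw.le _), ← Real.rpow_mul hw.le,
        Real.div_rpow hv.le hw.le]
      have e2 : (1 - 1 / k) * k = k - 1 := by field_simp
      rw [e2, Real.rpow_sub hw, Real.rpow_one]
      have : 0 < w ^ k := Real.rpow_pos_of_pos hw _
      field_simp
    rw [e1]
    refine mul_le_mul_of_nonneg_left ?_ hw.le
    have h2 : v / w ≤ Real.exp ((v - w) / w) := by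
      have h3 := Real.add_one_le_exp ((v - w) / w)
      have h4 : (v - w) / w + 1 = v / w := by field_simp; ring
      linarith
    calc (v / w) ^ k ≤ (Real.exp ((v - w) / w)) ^ k :=
          Real.rpow_le_rpow (by positivity) h2 hk0.le
      _ = Real.exp (k * ((v - w) / w)) := by rw [← Real.exp_mul, mul_comm]
  have h1 := key q b hq0 hb0
  have h2 := key (1 - q) (1 - b) h1q h1b
  have h3 : 1 - b - (1 - q) = -(b - q) := by ring
  rw [h3] at h2
  set t1 := k * ((b - q) / q) with ht1
  set t2 := k * (-(b - q) / (1 - q)) with ht2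
  have hbq : 0 ≤ b - q := by linarith
  have ht10 : 0 ≤ t1 := by rw [ht1]; positivity
  have ht1T : t1 ≤ T := by rw [ht1, ← mul_div_assoc]; exact hT1
  have ht2' : t2 = -(k * (b - q) / (1 - q)) := by rw [ht2]; ring
  have ht20 : 0 ≤ k * (b - q) / (1 - q) := by positivity
  have hT0 : 0 ≤ T := ht10.trans ht1T
  have hs1 : t1 ^ 2 ≤ T ^ 2 := pow_le_pow_left₀ ht10 ht1T 2
  have hs2 : t2 ^ 2 ≤ T ^ 2 := by
    rw [ht2', neg_sq]
    exact pow_le_pow_left₀ ht20 hT2 2
  have h5 := exp_le_add_exp_sq t1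
  have h6 := exp_le_add_exp_sq t2
  have h7 : Real.exp (t1 ^ 2) ≤ Real.exp (T ^ 2) := Real.exp_le_exp.2 hs1
  have h8 : Real.exp (t2 ^ 2) ≤ Real.exp (T ^ 2) := Real.exp_le_exp.2 hs2
  have h9 : q * t1 + (1 - q) * t2 = 0 := by
    rw [ht1, ht2]
    field_simp
    ring
  have h10 : (Real.exp (T ^ 2 / k)) ^ k = Real.exp (T ^ 2) := by
    rw [← Real.exp_mul]
    congr 1
    field_simp
  rw [h10]
  have h11 := mul_le_mul_of_nonneg_left (h5.trans (add_le_add le_rfl h7)) hq0.le
  have h12 := mul_le_mul_of_nonneg_left (h6.trans (add_le_add le_rfl h8)) h1q.le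
  nlinarith

section
variable {V : Type*} [DecidableEq V]

open Classical in
/-- The indicator that the union of the clusters of `K` has at least `n` points. -/
noncomputable def bigK (n : ℕ) (K : Finset V) (S : Finset (Sym2 V)) : ℝ :=
  if n ≤ (K.biUnion (cl S)).card then 1 else 0

lemma bigK_nonneg (n : ℕ) (K : Finset V) (S : Finset (Sym2 V)) : 0 ≤ bigK n K S := by
  unfold bigK; split_ifs <;> norm_num

lemma bigK_insert (n : ℕ) {K : Finset V} {u v : V} (hu : u ∈ K) (S : Finset (Sym2 V)) :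
    bigK n K (insert s(u, v) S) = bigK n (insert v K) S := by
  have h : K.biUnion (cl (insert s(u, v) S)) = (insert v K).biUnion (cl S) := by
    ext y
    rw [mem_biUnion, mem_biUnion]
    constructor
    · rintro ⟨c, hc, hy⟩
      rw [mem_cl, Cn_insert] at hy
      rcases hy with hy | ⟨_, hy⟩ | ⟨_, hy⟩
      · exact ⟨c, mem_insert_of_mem hc, mem_cl.2 hy⟩
      · exact ⟨v, mem_insert_self _ _, mem_cl.2 hy⟩
      · exact ⟨u, mem_insert_of_mem hu, mem_cl.2 hy⟩
    · rintro ⟨c, hc, hy⟩
      rw [mem_cl] at hy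
      rw [mem_insert] at hc
      rcases hc with rfl | hc
      · refine ⟨u, hu, ?_⟩
        rw [mem_cl, Cn_insert]
        exact Or.inr (Or.inl ⟨Cn.refl _ _, hy⟩)
      · refine ⟨c, hc, ?_⟩
        rw [mem_cl, Cn_insert]
        exact Or.inl hy
  unfold bigK
  rw [h]

/-- Comparison of the two parameters along the exploration. -/
theorem tree_compare {k q b R : ℝ} (hk : 1 < k) (hq0 : 0 < q) (hq1 : q < 1) (hb0 : 0 ≤ b)
    (hb1 : b ≤ 1) (hR1 : 1 ≤ R)
    (hR : (b / q ^ (1 - 1 / k)) ^ k + ((1 - b) / (1 - q) ^ (1 - 1 / k)) ^ k ≤ R ^ k)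
    (n d : ℕ) : ∀ (m : ℕ) (Λ : Finset (Sym2 V)), Λ.card = m →
    (∀ v, (Λ.filter (fun e => v ∈ e)).card ≤ d) → ∀ (K : Finset V) (Φ : ℕ),
    (Λ.filter (fun e => ∃ v ∈ K, v ∈ e)).card + d * (n - K.card) ≤ Φ →
    Ex b Λ (bigK n K) ≤ (Ex q Λ (bigK n K)) ^ (1 - 1 / k) * R ^ Φ := by
  have hk0 : 0 < k := by linarith
  have hθ : 0 < 1 - 1 / k := by
    have : 1 / k < 1 := by rw [div_lt_one hk0]; exact hk
    linarith
  have hR0 : 0 ≤ R := by linarith
  intro m
  induction m with
  | zero =>
    intro Λ hΛ _ K Φ _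
    rw [Finset.card_eq_zero] at hΛ
    subst hΛ
    rw [Ex_empty, Ex_empty]
    have hRp : 1 ≤ R ^ Φ := one_le_pow₀ hR1
    unfold bigK
    split_ifs
    · rw [Real.one_rpow, one_mul]; exact hRp
    · rw [Real.zero_rpow hθ.ne', zero_mul]
  | succ m ih =>
    intro Λ hΛ hd K Φ hΦ
    have hRp : 1 ≤ R ^ Φ := one_le_pow₀ hR1
    by_cases hn : n ≤ K.card
    · have h1 : ∀ S, bigK n K S = 1 := by
        intro S
        unfold bigK
        rw [if_pos]
        refine hn.trans (card_le_card fun y hy => ?_)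
        rw [mem_biUnion]
        exact ⟨y, hy, self_mem_cl S y⟩
      rw [Ex_congr b fun S _ => h1 S, Ex_congr q fun S _ => h1 S, Ex_const, Ex_const,
        Real.one_rpow, one_mul]
      exact hRp
    · push Not at hn
      by_cases hne : (Λ.filter (fun e => ∃ v ∈ K, v ∈ e)).Nonempty
      · obtain ⟨e, he⟩ := hne
        rw [mem_filter] at he
        obtain ⟨heΛ, u, huK, hue⟩ := he
        obtain ⟨v, rfl⟩ := Sym2.mem_iff_exists.1 hue
        set e := s(u, v) with hedef
        have hnot : e ∉ Λ.erase e := notMem_erase e Λ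
        have hcard : (Λ.erase e).card = m := by
          rw [card_erase_of_mem heΛ, hΛ]; rfl
        have hd' : ∀ w, ((Λ.erase e).filter (fun e => w ∈ e)).card ≤ d := fun w =>
          (card_le_card (filter_subset_filter _ (erase_subset _ _))).trans (hd w)
        have hrec : ∀ p : ℝ, Ex p Λ (bigK n K) =
            p * Ex p (Λ.erase e) (bigK n (insert v K)) + (1 - p) * Ex p (Λ.erase e) (bigK n K) := by
          intro p
          conv_lhs => rw [← insert_erase heΛ]
          rw [Ex_insert p hnot]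
          congr 2
          exact Ex_congr p fun S _ => bigK_insert n huK S
        -- the budgets
        have hI : ((Λ.erase e).filter (fun e => ∃ v ∈ K, v ∈ e)).card + 1 ≤
            (Λ.filter (fun e => ∃ v ∈ K, v ∈ e)).card := by
          rw [Nat.succ_le_iff]
          refine card_lt_card ?_
          refine ⟨filter_subset_filter _ (erase_subset _ _), fun h => ?_⟩
          have h1 := h (mem_filter.2 ⟨heΛ, u, huK, hue⟩)
          exact hnot (mem_filter.1 h1).1
        have hΦ1 : 1 ≤ Φ := by omega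
        have hb1' : ((Λ.erase e).filter (fun e => ∃ v ∈ K, v ∈ e)).card + d * (n - K.card) ≤
            Φ - 1 := by omega
        have hb2' : ((Λ.erase e).filter (fun e => ∃ w ∈ insert v K, w ∈ e)).card +
            d * (n - (insert v K).card) ≤ Φ - 1 := by
          by_cases hvK : v ∈ K
          · rw [insert_eq_of_mem hvK]; exact hb1'
          · rw [card_insert_of_notMem hvK]
            have h1 : ((Λ.erase e).filter (fun e => ∃ w ∈ insert v K, w ∈ e)).card ≤
                ((Λ.erase e).filter (fun e => ∃ v ∈ K, v ∈ e)).card + d := by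
              refine (card_le_card (t := (Λ.erase e).filter (fun e => ∃ v ∈ K, v ∈ e) ∪
                (Λ.erase e).filter (fun e => v ∈ e)) ?_).trans
                ((card_union_le _ _).trans (Nat.add_le_add_left (hd' v) _))
              intro f hf
              rw [mem_filter] at hf
              obtain ⟨hf1, w, hw, hwf⟩ := hf
              rw [mem_union, mem_filter, mem_filter]
              rw [mem_insert] at hw
              rcases hw with rfl | hw
              · exact Or.inr ⟨hf1, hwf⟩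
              · exact Or.inl ⟨hf1, w, hw, hwf⟩
            have h2 : d * (n - K.card) = d * (n - (K.card + 1)) + d := by
              have : n - K.card = (n - (K.card + 1)) + 1 := by omega
              rw [this, Nat.mul_add, Nat.mul_one]
            omega
        have ih1 := ih (Λ.erase e) hcard hd' (insert v K) (Φ - 1) hb2'
        have ih0 := ih (Λ.erase e) hcard hd' K (Φ - 1) hb1'
        rw [hrec b, hrec q]
        set a1 := Ex q (Λ.erase e) (bigK n (insert v K)) with ha1
        set a0 := Ex q (Λ.erase e) (bigK n K) with ha0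
        have ha10 : 0 ≤ a1 := Ex_nonneg hq0.le hq1.le fun S _ => bigK_nonneg _ _ _
        have ha00 : 0 ≤ a0 := Ex_nonneg hq0.le hq1.le fun S _ => bigK_nonneg _ _ _
        have hs := step_le hk hq0 hq1 hb0 hb1 ha10 ha00 hR0 hR
        have hRn : 0 ≤ R ^ (Φ - 1) := pow_nonneg hR0 _
        calc b * Ex b (Λ.erase e) (bigK n (insert v K)) + (1 - b) * Ex b (Λ.erase e) (bigK n K)
            ≤ b * (a1 ^ (1 - 1 / k) * R ^ (Φ - 1)) + (1 - b) * (a0 ^ (1 - 1 / k) * R ^ (Φ - 1)) :=
              add_le_add (mul_le_mul_of_nonneg_left ih1 hb0)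
                (mul_le_mul_of_nonneg_left ih0 (by linarith))
          _ = (b * a1 ^ (1 - 1 / k) + (1 - b) * a0 ^ (1 - 1 / k)) * R ^ (Φ - 1) := by ring
          _ ≤ (R * (q * a1 + (1 - q) * a0) ^ (1 - 1 / k)) * R ^ (Φ - 1) :=
              mul_le_mul_of_nonneg_right hs hRn
          _ = (q * a1 + (1 - q) * a0) ^ (1 - 1 / k) * (R ^ (Φ - 1) * R) := by ring
          _ = (q * a1 + (1 - q) * a0) ^ (1 - 1 / k) * R ^ Φ := by
              rw [← pow_succ, Nat.sub_add_cancel hΦ1]
      · -- nothing to explore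
        have h0 : ∀ S ⊆ Λ, bigK n K S = 0 := by
          intro S hS
          unfold bigK
          rw [if_neg]
          push Not
          refine lt_of_le_of_lt (card_le_card fun y hy => ?_) hn
          rw [mem_biUnion] at hy
          obtain ⟨c, hc, hy⟩ := hy
          rw [mem_cl] at hy
          have := Cn_closed (A := (K : Set V)) (S := S) (by
            intro a ha b' hab
            exfalso
            exact hne ⟨s(a, b'), mem_filter.2 ⟨hS hab, a, ha, by simp⟩⟩) hc hy
          exact this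
        rw [Ex_congr b h0, Ex_congr q h0, Ex_const, Ex_const, Real.zero_rpow hθ.ne', zero_mul]

/-- **Comparison of tails.** -/
theorem tail_compare {a k q b : ℝ} (ha : 0 < a) (hk : 1 < k) (haq : a ≤ q) (hqb : q ≤ b)
    (hb1 : b < 1) {Λ : Finset (Sym2 V)} {n d : ℕ} (hn : 1 ≤ n)
    (hd : ∀ v, (Λ.filter (fun e => v ∈ e)).card ≤ d) (x : V) :
    Ex b Λ (big n x) ≤ (Ex q Λ (big n x)) ^ (1 - 1 / k) *
      Real.exp (d / (a * (1 - b)) ^ 2 * n * k * (b - q) ^ 2) := by
  have hk0 : 0 < k := by linarith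
  have hq0 : 0 < q := ha.trans_le haq
  have hq1 : q < 1 := hqb.trans_lt hb1
  have h1b : 0 < 1 - b := by linarith
  have h1q : 0 < 1 - q := by linarith
  have hbq : 0 ≤ b - q := by linarith
  have ha1 : a < 1 := haq.trans_lt hq1
  set T := k * (b - q) / (a * (1 - b)) with hT
  have hT0 : 0 ≤ T := by positivity
  have hR := ratio_le (T := T) hk hq0 hqb hb1
    (by
      rw [hT]
      refine div_le_div_of_nonneg_left (by positivity) (by positivity) ?_
      nlinarith)
    (by
      rw [hT]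
      refine div_le_div_of_nonneg_left (by positivity) (by positivity) ?_
      nlinarith)
  have hR1 : 1 ≤ Real.exp (T ^ 2 / k) := Real.one_le_exp (by positivity)
  have hK : ∀ S, bigK n {x} S = big n x S := by
    intro S
    unfold bigK big csz
    rw [singleton_biUnion]
  have h := tree_compare hk hq0 hq1 (hq0.le.trans hqb) hb1.le hR1 hR n d Λ.card Λ rfl hd {x}
    (d * n) (by
      rw [card_singleton]
      have h1 : (Λ.filter (fun e => ∃ v ∈ ({x} : Finset V), v ∈ e)).card ≤ d := by
        refine le_trans (card_le_card fun e he => ?_) (hd x)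
        rw [mem_filter] at he ⊢
        obtain ⟨h1, v, hv, hve⟩ := he
        rw [mem_singleton] at hv
        exact ⟨h1, hv ▸ hve⟩
      have h2 : d * n = d * (n - 1) + d := by
        obtain ⟨m, rfl⟩ : ∃ m, n = m + 1 := ⟨n - 1, by omega⟩
        rw [Nat.add_sub_cancel, Nat.mul_add, Nat.mul_one]
      omega)
  rw [Ex_congr b fun S _ => hK S, Ex_congr q fun S _ => hK S] at h
  refine h.trans (le_of_eq ?_)
  congr 1
  rw [← Real.exp_nat_mul]
  congr 1
  rw [hT]
  push_cast
  field_simp

end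

end Vale.Agent.P151.H648
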