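import Vale.Agent.P151.H648.Theta

/-!
# Uniqueness of the infinite cluster on amenable quasi-transitive graphs
-/

open MeasureTheory ProbabilityTheory SimpleGraph Filter Topology unitInterval Finset

set_option linter.unusedSectionVars false

namespace Vale.Agent.P151.H648

open Vale.Agent.P151

variable {V : Type} [DecidableEq V] {G : SimpleGraph V} [G.LocallyFinite]

lemma E0_image {g : V → V} (hg : Function.Injective g) (n : ℕ) (x y : V)
    (S : Finset (Sym2 V)) : E0 n (g x) (g y) (S.image (Sym2.map g)) = E0 n x y S := by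
  unfold E0
  rw [csz_image hg, csz_image hg, Cn_image hg]

/-- The uniqueness inequality for the probability that `x0` and `y0` are in distinct clusters of
size at least `n`. -/
theorem T3_E0 (hG : G.Connected) {R : Finset V}
    (hR : ∀ x : V, ∃ y ∈ R, ∃ φ : G ≃g G, φ y = x)
    (hAm : ∀ ε : ℝ, 0 < ε → ∃ W : Finset V, W.Nonempty ∧
      ((outerBoundary G W).ncard : ℝ) ≤ ε * W.card) :
    ∃ C : ℝ, 0 ≤ C ∧ ∀ (p' p : ℝ) (n N : ℕ) (x0 y0 : V) (D : ℝ), 0 ≤ p' → p' < 1 → p' ≤ p → 0 < p →
      p ≤ 1 → 1 ≤ n → (∀ F : Finset V, ballF G x0 n ⊆ F → ballF G y0 n ⊆ F →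
        D ≤ Ex p (edgesIn G F) (E0 n x0 y0)) →
      tau G p' x0 y0 * D ≤ C / p * (N / Real.sqrt n) + phi G p' (N + 1) x0 := by
  classical
  obtain ⟨C, hC⟩ := folner hG hR hAm
  obtain ⟨d, hd1, hd⟩ := deg_bound hG hR
  refine ⟨8 * d * C, by (clear * - hd1; positivity), ?_⟩
  intro p' p n N x0 y0 D h0 h1 hp'p hp0 hp1 hn hD
  have hn' : (0 : ℝ) < n := by exact_mod_cast hn
  have hsq : 0 < Real.sqrt n := Real.sqrt_pos.2 hn'
  have hRHS0 : 0 ≤ 8 * d * C / p * (N / Real.sqrt n) + phi G p' (N + 1) x0 := by
    have := phi_nonneg (G := G) h0 h1.le (N + 1) x0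
    (clear * - hd1 hp0 hn this; positivity)
  by_cases hD0 : D ≤ 0
  · exact (mul_nonpos_of_nonneg_of_nonpos (tau_nonneg h0 h1.le x0 y0) hD0).trans hRHS0
  push Not at hD0
  -- the sprinkling parameter
  have h1p' : 0 < 1 - p' := by linarith only [h1]
  set q := (p - p') / (1 - p') with hq
  have hq0 : 0 ≤ q := div_nonneg (by linarith only [hp'p]) h1p'.le
  have hq1 : q ≤ 1 := by rw [hq, div_le_one h1p']; linarith only [hp1]
  have hp : 1 - p = (1 - p') * (1 - q) := by
    rw [hq]; field_simp; ring
  have key : ∀ F0 : Finset V, Ex p' (edgesIn G F0) (con x0 y0) * D ≤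
      8 * d * C / p * (N / Real.sqrt n) + phi G p' (N + 1) x0 := by
    intro F0
    obtain ⟨X, F2, hXne, hXorb, hF2, hF2c⟩ := hC x0 (N + 1 + n)
    have hchoice : ∀ x : V, ∃ φ : G ≃g G, x ∈ X → φ x0 = x := by
      intro x
      by_cases hx : x ∈ X
      · obtain ⟨φ, hφ⟩ := hXorb x hx
        exact ⟨φ, fun _ => hφ⟩
      · exact ⟨SimpleGraph.Iso.refl, fun h => absurd h hx⟩
    choose gg hgg using hchoice
    set yy : V → V := fun x => gg x y0 with hyy
    set F := F2 ∪ X.biUnion (fun x => (F0.image (gg x)) ∪ (ballF G x n ∪ ballF G (yy x) n))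
      with hF
    have hF2F : F2 ⊆ F := Finset.subset_union_left
    have hsubF : ∀ x ∈ X, (F0.image (gg x)) ∪ (ballF G x n ∪ ballF G (yy x) n) ⊆ F := by
      intro x hx
      refine Finset.Subset.trans ?_ Finset.subset_union_right
      exact Finset.subset_biUnion_of_mem
        (fun x => (F0.image (gg x)) ∪ (ballF G x n ∪ ballF G (yy x) n)) hx
    have hyyF : ∀ x ∈ X, yy x ∈ F := by
      intro x hx
      apply hsubF x hx
      rw [Finset.mem_union, Finset.mem_union]
      exact Or.inr (Or.inr (mem_ballF_self G (yy x) n))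
    have main := T3_fin hG h0 h1.le hq0 hq1 hp0 hp1 hp hn hd1 hd hF2F hF2 yy hyyF
    -- lower bound of the left side
    have hlow : ∀ x ∈ X, Ex p' (edgesIn G F0) (con x0 y0) * D ≤
        Ex p' (edgesIn G F) (con x (yy x)) * Ex p (edgesIn G F) (E0 n x (yy x)) := by
      intro x hx
      have hgx : gg x x0 = x := hgg x hx
      have a1 : Ex p' (edgesIn G F0) (con x0 y0) ≤ Ex p' (edgesIn G F) (con x (yy x)) := by
        have e1 : Ex p' (edgesIn G F0) (con x0 y0) =
            Ex p' (edgesIn G (F0.image (gg x))) (con x (yy x)) := by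
          rw [edgesIn_image, Ex_image p' _ (Sym2_map_inj (gg x).injective)]
          apply Ex_congr
          intro S _
          unfold con
          have hiff : Cn (S.image (Sym2.map (gg x))) x (yy x) ↔ Cn S x0 y0 := by
            have := Cn_image (gg x).injective S x0 y0
            rw [hgx] at this
            exact this
          by_cases h : Cn S x0 y0
          · rw [if_pos h, if_pos (hiff.2 h)]
          · rw [if_neg h, if_neg (fun h' => h (hiff.1 h'))]
        rw [e1]
        apply Ex_edgesIn_mono h0 h1.le (con_mono _ _)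
        exact Finset.Subset.trans Finset.subset_union_left (hsubF x hx)
      have a2 : D ≤ Ex p (edgesIn G F) (E0 n x (yy x)) := by
        have hFimg : F = (F.image (gg x).symm).image (gg x) := by
          rw [Finset.image_image]
          have : (⇑(gg x) ∘ ⇑(gg x).symm) = id := by
            funext v; simp
          rw [this, Finset.image_id]
        have hball : ∀ (z0 : V), ballF G (gg x z0) n ⊆ F →
            ballF G z0 n ⊆ F.image (gg x).symm := by
          intro z0 hz z hzz
          rw [Finset.mem_image]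
          refine ⟨gg x z, hz ?_, by simp⟩
          rw [mem_ballF_iff hG] at hzz ⊢
          rw [dist_aut hG]
          exact hzz
        have h2 := hD (F.image (gg x).symm) (hball x0 (by
          rw [hgx]
          exact (Finset.subset_union_left.trans Finset.subset_union_right).trans (hsubF x hx)))
          (hball y0 ((Finset.subset_union_right.trans Finset.subset_union_right).trans
            (hsubF x hx)))
        refine h2.trans (le_of_eq ?_)
        conv_rhs => rw [hFimg, edgesIn_image, Ex_image p _ (Sym2_map_inj (gg x).injective)]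
        apply Ex_congr
        intro S _
        have := E0_image (gg x).injective n x0 y0 S
        rw [hgx] at this
        exact this.symm
      exact mul_le_mul a1 a2 hD0.le (Ex_nonneg h0 h1.le (fun S _ => con_nonneg _ _ S))
    have hsum := Finset.sum_le_sum hlow
    rw [Finset.sum_const, nsmul_eq_mul] at hsum
    have hbig : ∑ x ∈ X, Ex p' (edgesIn G F) (big (N + 1) x) ≤ X.card * phi G p' (N + 1) x0 := by
      rw [← nsmul_eq_mul, ← Finset.sum_const]
      apply Finset.sum_le_sum
      intro x hx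
      rw [← phi_aut G (gg x) p' (N + 1) x0, hgg x hx]
      exact le_EV h0 h1.le (big_le_one _ _) F
    have hXpos : (0 : ℝ) < X.card := by exact_mod_cast Finset.card_pos.2 hXne
    have hF2c' : (F2.card : ℝ) ≤ C * X.card := by exact_mod_cast hF2c
    have hlast : 2 * N * (4 * d * F2.card / (p * Real.sqrt n)) ≤
        X.card * (8 * d * C / p * (N / Real.sqrt n)) := by
      have e : (X.card : ℝ) * (8 * d * C / p * (N / Real.sqrt n)) =
          2 * N * (4 * d * (C * X.card) / (p * Real.sqrt n)) := by
        field_simp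
        ring
      rw [e]
      apply mul_le_mul_of_nonneg_left _ (by (clear * -; positivity))
      apply div_le_div_of_nonneg_right _ (by positivity)
      apply mul_le_mul_of_nonneg_left hF2c' (by positivity)
    have hfin : (X.card : ℝ) * (Ex p' (edgesIn G F0) (con x0 y0) * D) ≤
        X.card * (8 * d * C / p * (N / Real.sqrt n) + phi G p' (N + 1) x0) := by
      rw [mul_add]
      linarith only [main, hsum, hbig, hlast]
    exact le_of_mul_le_mul_left hfin hXpos
  have : tau G p' x0 y0 = ⨆ F0 : Finset V, Ex p' (edgesIn G F0) (con x0 y0) := rfl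
  rw [this, Real.iSup_mul_of_nonneg hD0.le]
  exact ciSup_le key

/-- The event that `x` and `y` are in distinct infinite clusters. -/
def twoInf (x y : V) : Set (Set (Sym2 V)) :=
  {ω | y ∉ cluster ω x ∧ (cluster ω x).Infinite ∧ (cluster ω y).Infinite}

lemma twoInf_le (hG : G.Connected) (p : I) (n : ℕ) (x y : V) {F : Finset V}
    (hx : ballF G x n ⊆ F) (hy : ballF G y n ⊆ F) :
    (setBernoulli G.edgeSet p).real (twoInf x y) ≤ Ex p (edgesIn G F) (E0 n x y) := by
  classical
  have : Countable V := countable_of_connected G hG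
  have : Countable (Sym2 V) := by
    unfold Sym2; infer_instance
  set Q : Set (Sym2 V) → Prop := fun s => y ∉ cluster s x ∧ (n : ℕ∞) ≤ (cluster s x).encard ∧
    (n : ℕ∞) ≤ (cluster s y).encard with hQ
  have hbig : ∀ (z : V) (ω : Set (Sym2 V)), ω ⊆ G.edgeSet → ballF G z n ⊆ F →
      (cluster ω z).Infinite →
      (n : ℕ∞) ≤ (cluster (ω ∩ (edgesIn G F : Set (Sym2 V))) z).encard := by
    intro z ω hω hz hinf
    have h1 : (n : ℕ∞) ≤ (cluster ω z).encard := by
      rw [Set.encard_eq_top_iff.2 hinf]; exact le_top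
    rw [le_encard_iff G hG hω] at h1
    have h2 : trace (edgesIn G (ballF G z n)) ω ⊆ trace (edgesIn G F) ω := by
      intro e he
      rw [mem_trace] at he ⊢
      exact ⟨edgesIn_mono G hz he.1, he.2⟩
    have h3 := h1.trans (csz_mono h2 z)
    rw [← coe_trace, encard_cluster_coe]
    exact_mod_cast h3
  have h1 : (setBernoulli G.edgeSet p).real (twoInf x y) ≤
      (setBernoulli G.edgeSet p).real {ω | Q (ω ∩ (edgesIn G F : Set (Sym2 V)))} := by
    rw [measureReal_def, measureReal_def]
    apply ENNReal.toReal_mono (measure_ne_top _ _)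
    apply measure_mono_ae
    filter_upwards [setBernoulli_ae_subset (u := G.edgeSet) (p := p)] with ω hω h
    obtain ⟨ha, hb, hc⟩ := h
    refine ⟨fun hh => ha ?_, hbig x ω hω hx hb, hbig y ω hω hy hc⟩
    exact cluster_mono Set.inter_subset_left x hh
  refine h1.trans (le_of_eq ?_)
  rw [setBer_inter_pred G.edgeSet p (edgesIn G F)
    (fun e he => (mem_edgesIn.1 (Finset.mem_coe.1 he)).1) Q]
  unfold Ex
  rw [Finset.sum_filter]
  apply Finset.sum_congr rfl
  intro S _
  have hiff : Q (S : Set (Sym2 V)) ↔ (¬ Cn S x y ∧ n ≤ csz S x ∧ n ≤ csz S y) := by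
    simp only [hQ]
    rw [encard_cluster_coe, encard_cluster_coe]
    have h3 : y ∉ cluster (S : Set (Sym2 V)) x ↔ ¬ Cn S x y := Iff.rfl
    rw [h3]
    simp only [Nat.cast_le]
  unfold E0
  by_cases h : Q (S : Set (Sym2 V))
  · rw [if_pos h, if_pos (hiff.1 h), mul_one]
  · rw [if_neg h, if_neg (fun h' => h (hiff.2 h')), mul_zero]

lemma dist_le_card {S : Finset (Sym2 V)} (hS : ∀ e ∈ S, e ∈ G.edgeSet) {x z : V}
    (h : Cn S x z) : G.dist x z ≤ S.card := by
  obtain ⟨w, hw⟩ := h.exists_isPath
  have hle : gr S ≤ G := by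
    intro a b hab
    rw [gr_adj] at hab
    exact hS _ hab.1
  have h1 : G.dist x z ≤ (w.mapLe hle).length := SimpleGraph.dist_le _
  rw [Walk.length_mapLe] at h1
  refine h1.trans ?_
  rw [← Walk.length_edges, ← List.toFinset_card_of_nodup hw.isTrail.edges_nodup]
  apply Finset.card_le_card
  intro e he
  rw [List.mem_toFinset] at he
  have h2 := w.edges_subset_edgeSet he
  have h3 : e ∈ (SimpleGraph.fromEdgeSet (S : Set (Sym2 V))).edgeSet := h2
  rw [SimpleGraph.edgeSet_fromEdgeSet] at h3
  exact h3.1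

lemma phi_small (hG : G.Connected) (x : V) (d : ℕ) :
    ∃ K : ℝ, 0 ≤ K ∧ ∀ p : ℝ, 0 ≤ p → p ≤ 1 → phi G p ((ballF G x d).card + 1) x ≤ K * p ^ (d + 1) := by
  set N := (ballF G x d).card + 1 with hN
  set Λ := edgesIn G (ballF G x N) with hΛ
  refine ⟨(Λ.powerset.card : ℝ), by positivity, fun p h0 h1 => ?_⟩
  rw [phi_eq_phiB hG h0 h1]
  unfold phiB Ex
  rw [← nsmul_eq_mul, ← Finset.sum_const]
  apply Finset.sum_le_sum
  intro S hS
  rw [Finset.mem_powerset] at hS
  have hSG : ∀ e ∈ S, e ∈ G.edgeSet := fun e he => (mem_edgesIn.1 (hS he)).1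
  unfold big
  by_cases h : N ≤ csz S x
  · rw [if_pos h, mul_one]
    have hcard : d + 1 ≤ S.card := by
      by_contra hcon
      push Not at hcon
      have hsub : cl S x ⊆ ballF G x d := by
        intro z hz
        rw [mem_cl] at hz
        rw [mem_ballF_iff hG, SimpleGraph.dist_comm]
        have := dist_le_card hSG hz
        omega
      have := Finset.card_le_card hsub
      unfold csz at h
      omega
    have h2 : p ^ S.card ≤ p ^ (d + 1) := pow_le_pow_of_le_one h0 h1 hcard
    have h3 : (1 - p) ^ (Λ.card - S.card) ≤ 1 := pow_le_one₀ (by linarith) (by linarith)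
    have h4 : 0 ≤ (1 - p) ^ (Λ.card - S.card) := pow_nonneg (by linarith) _
    calc p ^ S.card * (1 - p) ^ (Λ.card - S.card) ≤ p ^ (d + 1) * 1 :=
          mul_le_mul h2 h3 h4 (pow_nonneg h0 _)
      _ = p ^ (d + 1) := mul_one _
  · rw [if_neg h, mul_zero]
    exact pow_nonneg h0 _

/-- **Uniqueness**: on an amenable quasi-transitive graph two vertices are almost surely not in
distinct infinite clusters. -/
theorem real_twoInf (hG : G.Connected) {R : Finset V}
    (hR : ∀ x : V, ∃ y ∈ R, ∃ φ : G ≃g G, φ y = x) (hAm : IsAmenable G) (p : I)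
    (hp : 0 < (p : ℝ)) (x y : V) :
    (setBernoulli G.edgeSet p).real (twoInf x y) = 0 := by
  obtain ⟨C, hC0, hC⟩ := T3_E0 hG hR hAm
  set D := (setBernoulli G.edgeSet p).real (twoInf x y) with hD
  have hD0 : 0 ≤ D := measureReal_nonneg
  obtain ⟨K, hK0, hK⟩ := phi_small hG x (G.dist x y)
  set N := (ballF G x (G.dist x y)).card with hN
  -- `n → ∞`
  have h1 : ∀ p' : ℝ, 0 < p' → p' < 1 → p' ≤ p → tau G p' x y * D ≤ phi G p' (N + 1) x := by
    intro p' h0 h1 h2
    have hlim : Tendsto (fun n : ℕ => C / p * ((N : ℝ) / Real.sqrt n) + phi G p' (N + 1) x)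
        atTop (𝓝 (C / p * 0 + phi G p' (N + 1) x)) := by
      apply Tendsto.add_const
      apply Tendsto.const_mul
      apply Tendsto.const_div_atTop
      exact Real.tendsto_sqrt_atTop.comp tendsto_natCast_atTop_atTop
    rw [mul_zero, zero_add] at hlim
    refine ge_of_tendsto hlim ?_
    filter_upwards [eventually_ge_atTop 1] with n hn
    exact hC p' p n N x y D h0.le h1 h2 hp p.2.2 hn fun F hF1 hF2 =>
      twoInf_le hG p n x y hF1 hF2
  have h2 : ∀ p' : ℝ, 0 < p' → p' < 1 → p' ≤ p → D ≤ K * p' := by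
    intro p' h0 h3 h4
    have h5 := h1 p' h0 h3 h4
    have h6 := tau_ge_pow (G := G) h0.le h3.le hG (G.dist x y) x y le_rfl
    have h7 := hK p' h0.le h3.le
    have h8 : p' ^ (G.dist x y) * D ≤ p' ^ (G.dist x y) * (K * p') := by
      calc p' ^ (G.dist x y) * D ≤ tau G p' x y * D := mul_le_mul_of_nonneg_right h6 hD0
        _ ≤ phi G p' (N + 1) x := h5
        _ ≤ K * p' ^ (G.dist x y + 1) := h7
        _ = p' ^ (G.dist x y) * (K * p') := by ring
    exact le_of_mul_le_mul_left h8 (pow_pos h0 _)
  have h3 : D ≤ 0 := by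
    apply le_of_forall_pos_le_add
    intro ε hε
    rw [zero_add]
    set p' := min (min ((p : ℝ)) (1 / 2)) (ε / (K + 1)) with hp'
    have hp'0 : 0 < p' := lt_min (lt_min hp (by norm_num)) (by positivity)
    have hp'1 : p' < 1 := lt_of_le_of_lt ((min_le_left _ _).trans (min_le_right _ _)) (by norm_num)
    have hp'p : p' ≤ p := (min_le_left _ _).trans (min_le_left _ _)
    refine (h2 p' hp'0 hp'1 hp'p).trans ?_
    have h4 : p' ≤ ε / (K + 1) := min_le_right _ _
    have h5 : K * p' ≤ K * (ε / (K + 1)) := mul_le_mul_of_nonneg_left h4 hK0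
    refine h5.trans ?_
    rw [mul_div_assoc', div_le_iff₀ (by positivity)]
    nlinarith
  exact le_antisymm h3 hD0

/-- Almost surely any two infinite clusters coincide. -/
theorem ae_unique (hG : G.Connected) {R : Finset V}
    (hR : ∀ x : V, ∃ y ∈ R, ∃ φ : G ≃g G, φ y = x) (hAm : IsAmenable G) (p : I)
    (hp : 0 < (p : ℝ)) : ∀ᵐ ω ∂(setBernoulli G.edgeSet p), ∀ x y : V,
      (cluster ω x).Infinite → (cluster ω y).Infinite → y ∈ cluster ω x := by
  have : Countable V := countable_of_connected G hG
  rw [ae_all_iff]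
  intro x
  rw [ae_all_iff]
  intro y
  have h := real_twoInf hG hR hAm p hp x y
  rw [measureReal_eq_zero_iff (measure_ne_top _ _)] at h
  have h2 := measure_eq_zero_iff_ae_notMem.1 h
  filter_upwards [h2] with ω hω hx hy
  by_contra hcon
  exact hω ⟨hcon, hx, hy⟩

end Vale.Agent.P151.H648
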